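import Vale.Agent.P073Z.T0.ModelStmt
import Vale.Agent.P073Z.MAN.Ex
import Vale.Agent.P073Z.A1

/-!
# A star-shaped neighbourhood in a manifold is a ball
-/

open Set Metric Topology Filter

namespace P073.T0

theorem conen_of (hS : STARB) : CONEN := by
  intro E _ _ _ n X K a hX hKX hK hL ha hs
  obtain ⟨O, W, φ, hO, haO, -⟩ := hX.chart (hKX ha)
  obtain ⟨r, hr, hφ⟩ := φ.conical a ⟨hKX ha, haO⟩
  have h1 : ∀ᶠ c in 𝓝 (0 : ℝ), ∀ x ∈ K, ‖c • (x - a)‖ < r ∧ a + c • (x - a) ∈ O := by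
    refine hK.eventually_forall_of_forall_eventually fun x _ => ?_
    have h2 : Continuous fun q : ℝ × E => ‖q.1 • (q.2 - a)‖ := by fun_prop
    have h3 : Continuous fun q : ℝ × E => a + q.1 • (q.2 - a) := by fun_prop
    exact Eventually.and ((isOpen_lt h2 continuous_const).mem_nhds (by simpa using hr))
      ((hO.preimage h3).mem_nhds (by simpa using haO))
  obtain ⟨c, hc, hc0, hc1⟩ :=
    ((h1.filter_mono nhdsWithin_le_nhds).and (Ioo_mem_nhdsGT (zero_lt_one' ℝ))).exists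
  let g : E → E := fun x => a + c • (x - a)
  have hg : MapsTo g K (X ∩ O) := fun x hx => ⟨hKX (hs x hx c ⟨hc0.le, hc1⟩).1, (hc x hx).2⟩
  have hgc : Continuous g := by fun_prop
  have hgk : ConicalOn g K := by
    intro x hx
    obtain ⟨ρ, hρ, h2⟩ := hL.conicalSet x hx
    refine ⟨ρ, hρ, fun v hv hxv t ht => ⟨h2 v hv hxv t ht, ?_⟩⟩
    simp only [g]
    module
  have hgi : InjOn g K := fun x _ y _ h =>
    sub_left_injective (smul_right_injective E hc0.ne' (add_left_cancel h))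
  have hfc : ContinuousOn (φ.toFun ∘ g) K := φ.cont.comp hgc.continuousOn hg
  have hfk : ConicalOn (φ.toFun ∘ g) K := φ.conical.comp hgk hg hgc.continuousOn
  have hfi : InjOn (φ.toFun ∘ g) K := φ.injOn.comp hgi hg
  have hint : ∀ z ∈ K, K ∈ 𝓝[X] z → (φ.toFun ∘ g) '' K ∈ 𝓝 ((φ.toFun ∘ g) z) := by
    intro z hz hn
    have h2 := (plMan_open isOpen_univ).iod' hX (hKX hz) hn (hfc.mono inter_subset_right)
      (hfi.mono inter_subset_right) (mapsTo_univ _ _)
    rw [nhdsWithin_univ] at h2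
    exact mem_of_superset h2 (image_mono inter_subset_right)
  have ha0 := hs a ha 0 ⟨le_rfl, zero_lt_one⟩
  rw [zero_smul, add_zero] at ha0
  have hb := hS (hK.image_of_continuousOn hfc) (img hK hL ⟨hfc, hfk⟩) (hint a ha ha0.2) (by
    rintro _ ⟨x, hx, rfl⟩ s h2
    have h3 := (hφ _ (hc x hx).1.le (hg hx) s ⟨h2.1, h2.2.le⟩).2
    have h4 : g (a + s • (x - a)) = a + s • c • (x - a) := by
      simp only [g]
      module
    have h5 : g a = a := by simp [g]
    have h6 := hint _ (hs x hx s h2).1 (hs x hx s h2).2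
    rw [mem_interior_iff_mem_nhds, Function.comp_apply (x := a), h5]
    rw [Function.comp_apply, h4, h3] at h6
    exact h6)
  obtain ⟨Φ, -⟩ := Sh.exists_ofCompact hK _ hfc hfi hfk rfl
  have h2 := hb.image Φ.symm Subset.rfl
  rw [Φ.symm.image_eq] at h2
  have h3 : Φ.symm.toFun '' frontier ((φ.toFun ∘ g) '' K) = {x ∈ K | K ∉ 𝓝[X] x} := by
    ext x
    constructor
    · intro hx
      exact ⟨h2.1 hx, fun h4 => (hX.ball_nhds_iff h2 hKX (h2.1 hx)).1 h4 hx⟩
    · rintro ⟨hx, h4⟩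
      by_contra h5
      exact h4 ((hX.ball_nhds_iff h2 hKX hx).2 h5)
  rwa [h3] at h2

end P073.T0
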