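import Vale.Agent.P073Z.T0.ModelStmt
import Vale.Agent.P073Z.SHELL
import Vale.Agent.P073Z.CosFin

/-!
# Bicollar of a circle on a sphere
-/

open Set Metric Topology Filter

namespace P073.T0

variable {E : Type} [NormedAddCommGroup E] [NormedSpace ℝ E]

/-- a thin inner collar, parametrised by an interval `I` with `c • I = [0, 1]` -/
theorem thin_collar {n : ℕ} {C B O : Set E} (h : ConBall n C B) (hO : IsOpen O) (hBO : B ⊆ O)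
    {c : ℝ} {I : Set ℝ} (hc : c ≠ 0) (hI : IsCompact I) (hI' : Convex ℝ I)
    (hcI : ∀ s, s ∈ I ↔ c * s ∈ Icc (0:ℝ) 1) :
    ∃ (A : Set E) (χ : ConHomeo (B ×ˢ I) A), (∀ x ∈ B, χ.toFun (x, 0) = x) ∧ A ⊆ C ∩ O ∧
      IsClosed A ∧ ∀ x ∈ B, A ∈ 𝓝[C] x := by
  obtain ⟨Y, κ, lam, hY, h0, hl, hlk, hout, -⟩ := coli h
  have hB := h.isCompact_bdry
  obtain ⟨η, hη, h1, h2⟩ : ∃ η : ℝ, 0 < η ∧ η ≤ 1 ∧
      ∀ x ∈ B, ∀ s ∈ Icc (0:ℝ) η, κ.toFun (x, s) ∈ O := by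
    obtain ⟨U, hU, hU'⟩ := (_root_.continuousOn_iff'.1 κ.cont) O hO
    obtain ⟨u, v, -, hv, h3, h4, h5⟩ := generalized_tube_lemma hB (isCompact_singleton (x := (0:ℝ)))
      hU (by
        rintro ⟨x, s⟩ ⟨hx, rfl : s = 0⟩
        have h6 : ((x, 0) : E × ℝ) ∈ κ.toFun ⁻¹' O ∩ B ×ˢ Icc (0:ℝ) 1 :=
          ⟨by rw [mem_preimage, h0 x hx]; exact hBO hx, hx, le_rfl, zero_le_one⟩
        rw [hU'] at h6
        exact h6.1)
    obtain ⟨ε, hε, h6⟩ := Metric.nhds_basis_closedBall.mem_iff.1 (hv.mem_nhds (h4 rfl))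
    refine ⟨min ε 1, lt_min hε one_pos, min_le_right _ _, fun x hx s hs => ?_⟩
    have h7 : ((x, s) : E × ℝ) ∈ U ∩ B ×ˢ Icc (0:ℝ) 1 :=
      ⟨h5 ⟨h3 hx, h6 (by
        rw [mem_closedBall_zero_iff, Real.norm_of_nonneg hs.1]
        exact hs.2.trans (min_le_left _ _))⟩, hx, hs.1, hs.2.trans (min_le_right _ _)⟩
    rw [← hU'] at h7
    exact h7.1
  let L : E × ℝ →L[ℝ] E × ℝ :=
    (ContinuousLinearMap.fst ℝ E ℝ).prod ((η * c) • ContinuousLinearMap.snd ℝ E ℝ)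
  have hL : ∀ z, L z = (z.1, η * c * z.2) := fun _ => rfl
  have hs : ∀ s ∈ I, η * c * s ∈ Icc (0:ℝ) η := fun s hs => by
    have h3 := (hcI s).1 hs
    rw [mul_assoc]
    exact ⟨mul_nonneg hη.le h3.1, mul_le_of_le_one_right hη.le h3.2⟩
  have hm : MapsTo L (B ×ˢ I) (B ×ˢ Icc (0:ℝ) 1) := fun z hz =>
    ⟨hz.1, (hs _ hz.2).1, (hs _ hz.2).2.trans h1⟩
  obtain ⟨χ, hχ⟩ := Sh.exists_ofCompact (hB.prod hI) (κ.toFun ∘ L)
    (κ.cont.comp L.continuous.continuousOn hm)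
    (κ.injOn.comp (fun z _ z' _ e => by
      rw [hL, hL, Prod.mk.injEq] at e
      exact Prod.ext e.1 (mul_left_cancel₀ (mul_ne_zero hη.ne' hc) e.2)) hm)
    (κ.conical.comp (conicalOn_linear (L : E × ℝ →ₗ[ℝ] E × ℝ)
      (Sh.conicalSet_prod h.conicalSet_bdry (Convex.conicalSet hI'))) hm L.continuous.continuousOn)
    rfl
  refine ⟨_, χ, fun x hx => ?_, ?_, (χ.isCompact_right (hB.prod hI)).isClosed, fun x hx => ?_⟩
  · rw [hχ, Function.comp_apply, hL, mul_zero, h0 x hx]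
  · rintro _ ⟨z, hz, rfl⟩
    exact ⟨hY (κ.mapsTo (hm hz)), h2 _ hz.1 _ (hs _ hz.2)⟩
  · have h3 : lam x < η := by
      have h4 := hlk x hx 0 ⟨le_rfl, zero_le_one⟩
      rw [h0 x hx] at h4
      rwa [h4]
    have h4 : ∀ᶠ y in 𝓝[C] x, lam y < η := hl.1 x (h.1 hx) (Iio_mem_nhds h3)
    filter_upwards [h4, self_mem_nhdsWithin] with y h5 h6
    have h7 : y ∈ Y := by
      by_contra h8
      rw [hout y ⟨h6, h8⟩] at h5
      exact absurd h1 h5.not_ge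
    rw [← κ.image_eq] at h7
    obtain ⟨⟨b, s⟩, ⟨hb, hs'⟩, rfl⟩ := h7
    rw [hlk b hb s hs'] at h5
    have h8 : η * c * (s / (η * c)) = s := mul_div_cancel₀ s (mul_ne_zero hη.ne' hc)
    refine ⟨(b, s / (η * c)), ⟨hb, (hcI _).2 ?_⟩, by rw [Function.comp_apply, hL, h8]⟩
    have h9 : c * (s / (η * c)) = s / η := by field_simp
    rw [h9]
    exact ⟨div_nonneg hs'.1 hη.le, (div_le_one hη).2 h5.le⟩

theorem bic_of (hC : COS) : BIC := by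
  intro E _ _ S J O hS hJ hJS hO hJO
  obtain ⟨D₁, D₂, h1, h2, hu, hi, -⟩ := hC.1 hS hJ hJS
  obtain ⟨A₁, χ₁, a1, a2, a3, a4⟩ := thin_collar h1 hO hJO (c := 1) (I := Icc 0 1) one_ne_zero
    isCompact_Icc (convex_Icc _ _) fun s => by rw [one_mul]
  obtain ⟨A₂, χ₂, b1, b2, b3, b4⟩ := thin_collar h2 hO hJO (c := -1) (I := Icc (-1) 0)
    (by norm_num) isCompact_Icc (convex_Icc _ _) fun s =>
      ⟨fun h => ⟨by linarith [h.2], by linarith [h.1]⟩,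
        fun h => ⟨by linarith [h.2], by linarith [h.1]⟩⟩
  have hB := h1.isCompact_bdry.isClosed
  have hag : EqOn χ₁.toFun χ₂.toFun (J ×ˢ Icc (0:ℝ) 1 ∩ J ×ˢ Icc (-1:ℝ) 0) := by
    rintro ⟨x, s⟩ ⟨⟨hx, hs⟩, -, hs'⟩
    obtain rfl : s = 0 := le_antisymm hs'.2 hs.1
    rw [a1 x hx, b1 x hx]
  have him : A₁ ∩ A₂ ⊆ χ₁.toFun '' (J ×ˢ Icc (0:ℝ) 1 ∩ J ×ˢ Icc (-1:ℝ) 0) := fun y hy => by
    have h3 : y ∈ J := hi ▸ ⟨(a2 hy.1).1, (b2 hy.2).1⟩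
    exact ⟨(y, 0), ⟨⟨h3, le_rfl, zero_le_one⟩, h3, by norm_num, le_rfl⟩, a1 y h3⟩
  refine ⟨A₁ ∪ A₂, (χ₁.glue χ₂ (hB.prod isClosed_Icc) (hB.prod isClosed_Icc) a3 b3 hag him).cast
    ?_ rfl, fun x hx => ?_, ?_, fun x hx => ?_⟩
  · rw [← prod_union, union_comm, Icc_union_Icc_eq_Icc (by norm_num) zero_le_one]
  · rw [ConHomeo.cast_toFun, ConHomeo.glue_left _ _ _ _ _ _ _ _
      (mk_mem_prod hx (left_mem_Icc.2 zero_le_one)), a1 x hx]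
  · rintro y (hy | hy)
    · exact ⟨hu ▸ Or.inl (a2 hy).1, (a2 hy).2⟩
    · exact ⟨hu ▸ Or.inr (b2 hy).1, (b2 hy).2⟩
  · rw [← hu, nhdsWithin_union, mem_sup]
    exact ⟨mem_of_superset (a4 x hx) subset_union_left,
      mem_of_superset (b4 x hx) subset_union_right⟩

theorem bic : BIC := bic_of cos_thm

end P073.T0
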