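import Vale.Agent.P073Z.T0.LemH2

/-!
# Cutting a disc along a collar
-/

open Set Metric Topology Filter

namespace P073

def LEMH : Prop := ∀ {E G : Type} [NormedAddCommGroup E] [NormedSpace ℝ E]
  [NormedAddCommGroup G] [NormedSpace ℝ G] [FiniteDimensional ℝ G] {S' B' S₀ C A F : Set E}
  (χ : ConHomeo (C ×ˢ Icc (-1:ℝ) 1) A), ConBall 2 S' B' → ConBall 2 S₀ C → S₀ ⊆ S' \ B' →
  (∀ x ∈ C, χ.toFun (x, 0) = x) → A ⊆ F →
  ∃ δ > 0, ∀ {Y D₀ : Set G} (κ : ConHomeo (F ×ˢ Icc (-1:ℝ) 1) Y) (d : ConHomeo S' D₀)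
    {lam : G → ℝ} {sg : ℝ}, (sg = 1 ∨ sg = -1) → PLOn lam D₀ →
    (∀ u ∈ F, ∀ s ∈ Icc (-1:ℝ) 1, lam (κ.toFun (u, s)) = s) →
    (∀ x ∈ S', |lam (d.toFun x)| < 1 →
      ∃ u ∈ A, d.toFun x = κ.toFun (u, lam (d.toFun x)) ∧ dist x u < δ) →
    (∀ x ∈ S₀, δ ≤ infDist x C → sg * lam (d.toFun x) = 1) →
    (∀ x ∈ S' \ S₀, δ ≤ infDist x C → sg * lam (d.toFun x) = -1) →
    ∃ D₁, ConBall 2 D₁ (κ.toFun '' (C ×ˢ {0})) ∧
      (∀ y ∈ D₁, (y ∈ D₀ ∧ 1 / 3 ≤ sg * lam y) ∨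
        ∃ u ∈ A, ∃ s ∈ Icc (0:ℝ) (2 / 3), y = κ.toFun (u, sg * s)) ∧
      ∀ y ∈ D₁, lam y = 0 → y ∈ κ.toFun '' (C ×ˢ {0})

namespace LemH

open A2

variable {E : Type} [NormedAddCommGroup E] [NormedSpace ℝ E]

/-- compatible planar charts of the disc and of the annulus -/
theorem exists_charts {S' B' S₀ C A : Set E} (χ : ConHomeo (C ×ˢ Icc (-1:ℝ) 1) A)
    (h' : ConBall 2 S' B') (h : ConBall 2 S₀ C) (hs : S₀ ⊆ S') (hχ : ∀ x ∈ C, χ.toFun (x, 0) = x) :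
    ∃ (P : Set (ℝ × ℝ)) (θ : ConHomeo S' P) (ω : ConHomeo A An), (∃ z ∈ S₀ \ C, θ.toFun z = 0) ∧
      (∀ x ∈ C, ω.toFun x = θ.toFun x) ∧ C ⊆ A ∧ θ.toFun '' C = sphere 0 1 := by
  obtain ⟨-, ψ, -⟩ := A12.conBall_two_iff.1 h'
  obtain ⟨⟨Φ, hΦ⟩, hfr⟩ := (h.image ψ hs).ambDiscD iod
  have hS : Φ.toFun '' sphere 0 1 = ψ.toFun '' C := by
    rw [hfr, ← hΦ, ← Φ.image_frontier, frontier_square]
  let θ := ψ.trans (Φ.symm.restr ψ.conicalSet_right (subset_univ _))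
  have hθ : ∀ T, θ.toFun '' T = Φ.invFun '' (ψ.toFun '' T) := fun T =>
    image_comp Φ.invFun ψ.toFun T
  have hθC : θ.toFun '' C = sphere 0 1 := by rw [hθ, ← hS, Φ.invImgD (subset_univ _)]
  have hθS : θ.toFun '' S₀ = closedBall 0 1 := by rw [hθ, ← hΦ, Φ.invImgD (subset_univ _)]
  obtain ⟨Q, hQ⟩ := Sh.exists_shell2 (a := 1 / 2) (b := 3 / 2) (by norm_num) (by norm_num)
  obtain ⟨a, ha, -⟩ := Sh.exists_aff (a := -1) (b := 1) (a' := 1 / 2) (b' := 3 / 2) (c := 1)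
    (d := 1 / 2) (by norm_num) (fun s hs => ⟨by linarith [hs.1], by linarith [hs.2]⟩)
    (fun s hs => ⟨by linarith [hs.1], by linarith [hs.2]⟩)
  have hc1 : ConicalSet (sphere (0 : ℝ × ℝ) 1) := locCone_sphere_prod.conicalSet
  have h1 : (1:ℝ) ∈ Icc (1 / 2 : ℝ) (3 / 2) := ⟨by norm_num, by norm_num⟩
  have hm : MapsTo (fun p : ℝ × ℝ => (p, (1:ℝ))) (sphere 0 1)
      (sphere 0 1 ×ˢ Icc (1 / 2 : ℝ) (3 / 2)) := fun p hp => ⟨hp, h1⟩
  have hp := pl_comp ⟨Q.cont, Q.conical⟩ (pl_prodMk (pl_id hc1) (pl_const (1:ℝ) hc1)) hm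
  obtain ⟨β, hβ⟩ := Sh.exists_ofCompact (Y := sphere 0 1) (isCompact_sphere _ _) _ hp.1
    (fun x hx y hy e => congrArg Prod.fst (Q.injOn (hm hx) (hm hy) e)) hp.2 (by
      ext y
      constructor
      · rintro ⟨p, hp, rfl⟩
        exact mem_sphere_zero_iff_norm.2 ((hQ p hp).2.2 1 h1)
      · intro hy
        have hy' := mem_sphere_zero_iff_norm.1 hy
        have h2 : y ∈ {z : ℝ × ℝ | 1 / 2 ≤ ‖z‖ ∧ ‖z‖ ≤ 3 / 2} := ⟨by linarith, by linarith⟩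
        have h3 := Q.mapsTo_inv h2
        have h4 := (hQ _ h3.1).2.2 _ h3.2
        rw [Prod.mk.eta, Q.right_inv h2, hy'] at h4
        exact ⟨_, h3.1, (congrArg (fun s => Q.toFun ((Q.invFun y).1, s)) h4).trans (Q.right_inv h2)⟩)
  let α := ((θ.restr h.conicalSet_bdry (h.1.trans hs)).cast rfl hθC).trans β.symm
  have h0 : ∀ x ∈ C, ((x, 0) : E × ℝ) ∈ C ×ˢ Icc (-1:ℝ) 1 := fun x hx =>
    ⟨hx, by norm_num, by norm_num⟩
  refine ⟨_, θ, χ.symm.trans ((Sh.prod α a).trans Q), ?_, fun x hx => ?_,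
    fun x hx => hχ x hx ▸ χ.mapsTo (h0 x hx), hθC⟩
  · obtain ⟨z, hz, e⟩ := hθS.ge (mem_closedBall_self zero_le_one)
    refine ⟨z, ⟨hz, fun hzC => ?_⟩, e⟩
    have := hθC.le ⟨z, hzC, e⟩
    simp at this
  · have e : χ.invFun x = (x, 0) := by
      conv_lhs => rw [← hχ x hx]
      exact χ.left_inv (h0 x hx)
    change Q.toFun (β.invFun (θ.toFun (χ.invFun x).1), a.toFun (χ.invFun x).2) = _
    rw [e, ha, mul_zero, add_zero]
    exact (congrFun hβ _).symm.trans (β.right_inv (hθC.le ⟨x, hx, rfl⟩))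

end LemH

open A2 LemH

theorem lemh_of (hP : P4) : LEMH := by
  intro E G _ _ _ _ _ S' B' S₀ C A F χ h' h hs hχ hAF
  obtain ⟨P, θ, ω, ⟨z, hz, hθz⟩, hω, hCA, hθC⟩ :=
    exists_charts χ h' h (hs.trans sdiff_subset) hχ
  have hC := Lam.bd_nonempty h
  have hA : IsCompact A := ω.symm.isCompact_right isCompact_An
  obtain ⟨δ₁, hδ₁, H₁⟩ := Metric.uniformContinuousOn_iff.1
    (h'.isCompact.uniformContinuousOn_of_continuous θ.cont) (1 / 2) one_half_pos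
  obtain ⟨δ₂, hδ₂, H₂⟩ := Metric.uniformContinuousOn_iff.1
    (hA.uniformContinuousOn_of_continuous ω.cont) (1 / 2) one_half_pos
  obtain ⟨δ₃, hδ₃, H₃⟩ := (h'.isCompact_bdry.insert z).exists_forall_le'
    (continuous_infDist_pt C).continuousOn (a := 0) fun x hx =>
      (h.isCompact_bdry.isClosed.notMem_iff_infDist_pos hC).1 (by
        rcases hx with rfl | hx
        · exact hz.2
        · exact fun hh => (hs (h.1 hh)).2 hx)
  refine ⟨min (min δ₁ (δ₂ / 2)) δ₃, lt_min (lt_min hδ₁ (half_pos hδ₂)) hδ₃, ?_⟩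
  intro Y D₀ κ d lam sg hsg hl hκ hcl hin hout
  have sg2 : ∀ s, sg * (sg * s) = s := fun s => by rcases hsg with rfl | rfl <;> ring
  have sga : ∀ s, |sg * s| = |s| := fun s => by rcases hsg with rfl | rfl <;> simp
  have hc : ConicalSet (An ×ˢ Icc (0:ℝ) 1) :=
    conicalSet_prod locCone_An.conicalSet (Convex.conicalSet (convex_Icc 0 1))
  have hm : MapsTo (fun q : (ℝ × ℝ) × ℝ => (ω.invFun q.1, sg * q.2)) (An ×ˢ Icc (0:ℝ) 1)
      (F ×ˢ Icc (-1:ℝ) 1) := fun q hq => ⟨hAF (ω.mapsTo_inv hq.1), abs_le.1 (by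
        rw [sga, abs_of_nonneg hq.2.1]; exact hq.2.2)⟩
  have hp := pl_comp ⟨κ.cont, κ.conical⟩ (pl_prodMk (pl_comp ⟨ω.cont_inv, ω.conical_inv⟩
    (pl_fst hc) fun q hq => hq.1) (pl_mul sg (pl_snd hc))) hm
  obtain ⟨Λ, hΛ⟩ := Sh.exists_ofCompact (isCompact_An.prod isCompact_Icc) _ hp.1 (by
    intro x hx y hy e
    obtain ⟨e1, e2⟩ := Prod.mk.inj (κ.injOn (hm hx) (hm hy) e)
    exact Prod.ext (ω.symm.injOn hx.1 hy.1 e1) (by rw [← sg2 x.2, e2, sg2])) hp.2 rfl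
  have hΛ' : ∀ y s, Λ.toFun (y, s) = κ.toFun (ω.invFun y, sg * s) := fun y s => congrFun hΛ _
  have hD := h'.image d Subset.rfl
  rw [d.image_eq] at hD
  have hzS : z ∈ S' := (hs hz.1).1
  obtain ⟨D₁, h1, h2⟩ := core Λ (lam := fun x => sg * lam x) hP (d.symm.trans θ)
    (z := d.toFun z) hD (pl_mul sg hl) (fun y hy s hs => by
      rw [hΛ', hκ _ (hm (x := (y, s)) ⟨hy, hs⟩).1 _ (hm (x := (y, s)) ⟨hy, hs⟩).2, sg2])
    (by
      rintro _ ⟨x, hx, rfl⟩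
      rw [hout x ⟨h'.1 hx, fun hh => (hs hh).2 hx⟩
        ((min_le_right _ _).trans (H₃ x (mem_insert_of_mem _ hx)))]
      norm_num)
    (d.mapsTo hzS) ((congrArg θ.toFun (d.left_inv hzS)).trans hθz)
    (hin z hz.1 ((min_le_right _ _).trans (H₃ z (mem_insert _ _)))).ge (by
      intro w hw ht
      obtain ⟨x, hx, rfl⟩ := d.image_eq.ge hw
      obtain ⟨u, hu, e, hxu⟩ := hcl x hx (by
        rw [← sga, abs_lt]; constructor <;> linarith [ht.1, ht.2])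
      have hxC : infDist x C < min (min δ₁ (δ₂ / 2)) δ₃ := by
        by_contra hh
        by_cases hx0 : x ∈ S₀
        · linarith [hin x hx0 (not_lt.1 hh), ht.2]
        · linarith [hout x ⟨hx, hx0⟩ (not_lt.1 hh), ht.1]
      obtain ⟨p, hp, hxp⟩ := (infDist_lt_iff hC).1 hxC
      have a1 := H₁ x hx p (hs (h.1 hp)).1 (hxp.trans_le ((min_le_left _ _).trans (min_le_left _ _)))
      have a2 := H₂ u hu p (hCA hp) (by
        have b1 := hxp.trans_le ((min_le_left _ _).trans (min_le_right _ _))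
        have b2 := hxu.trans_le ((min_le_left _ _).trans (min_le_right _ _))
        linarith [dist_triangle_left u p x])
      rw [hω p hp] at a2
      have a3 : ‖θ.toFun p‖ = 1 := mem_sphere_zero_iff_norm.1 (hθC.le ⟨p, hp, rfl⟩)
      have a4 := abs_lt.1 ((abs_norm_sub_norm_le (ω.toFun u) (θ.toFun p)).trans_lt
        ((dist_eq_norm _ _).symm.trans_lt a2))
      refine ⟨ω.toFun u, by linarith [a4.1], by linarith [a4.2], ?_, fun h0 => ?_⟩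
      · rw [hΛ', ω.left_inv hu, sg2]
        exact e
      · have a5 : dist (θ.toFun (d.invFun (d.toFun x))) (θ.toFun p) < 1 / 2 := by
          rwa [d.left_inv hx]
        have := (convex_ball (θ.toFun p) (1 / 2)).segment_subset a5 a2 h0
        rw [mem_ball, dist_zero_left, a3] at this
        norm_num at this)
  have e0 : (fun y => Λ.toFun (y, 0)) '' sphere 0 1 = κ.toFun '' (C ×ˢ {0}) := by
    have h3 : ∀ x ∈ C, Λ.toFun (θ.toFun x, 0) = κ.toFun (x, 0) := fun x hx => by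
      rw [hΛ', mul_zero, ← hω x hx, ω.left_inv (hCA hx)]
    rw [← hθC]
    ext w
    constructor
    · rintro ⟨_, ⟨x, hx, rfl⟩, rfl⟩
      exact ⟨(x, 0), ⟨hx, rfl⟩, (h3 x hx).symm⟩
    · rintro ⟨⟨x, s⟩, ⟨hx, rfl⟩, rfl⟩
      exact ⟨_, ⟨x, hx, rfl⟩, h3 x hx⟩
  refine ⟨D₁, e0 ▸ h1, fun y hy => ?_, fun y hy h0 => ?_⟩
  · rcases h2 y hy with h3 | ⟨v, hv, s, hs, e, -⟩
    · exact Or.inl h3
    · exact Or.inr ⟨_, ω.mapsTo_inv hv, s, hs, e.trans (hΛ' v s)⟩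
  · rcases h2 y hy with h3 | ⟨v, hv, s, hs, e, h3⟩
    · have := h3.2
      rw [h0, mul_zero] at this
      norm_num at this
    · have hs' : s ∈ Icc (0:ℝ) 1 := ⟨hs.1, by linarith [hs.2]⟩
      rw [e, hΛ', hκ _ (hm (x := (v, s)) ⟨hv, hs'⟩).1 _ (hm (x := (v, s)) ⟨hv, hs'⟩).2] at h0
      have h4 : s = 0 := by rw [← sg2 s, show sg * s = 0 from h0, mul_zero]
      rw [← e0, e, h4]
      exact ⟨v, h3 h4, rfl⟩

end P073
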