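import Vale.Agent.P073Z.T0.Handle

/-!
# Existence of the handle structure
-/

open Set Metric Topology Filter

namespace P073.T0

variable {K : RCx E3} (d : Derived K) {x y : E3} {i j k : K.ι} {c : K.ι → ℝ}

theorem Bd_sub (c : K.ι → ℝ) (i : K.ι) : Bd d c i ⊆ Bl d c i := sdiff_subset

/-- a boundary point of a tile off the surface lies in an adjacent disc -/
theorem exists_Dsc (ho : IsOpen K.carrier) (hc : Wt K c) (hi : Tile K i) (hx : x ∈ Bl d c i)
    (h0 : d.t i x = 0) : ∃ k, Mid K k ∧ Same K k i ∧ d.t k x ≠ 0 ∧ x ∈ Dsc d c k := by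
  obtain ⟨k, h1, h2⟩ := exists_same d (hc.ne i) hc.ne hx.1.1 hx.2
  have hs := hc.same h2
  have hk : Mid K k := (tile_or_mid ho k).resolve_left fun hk => by
    rw [← hi.eq hk hs (hx.1.2 k h1)] at h1
    exact h1 h0
  exact ⟨k, hk, hs.symm, h1, mem_Dsc d ho hc hk hi hs.symm hx h0 h1⟩

theorem disj_tiles (hc : Wt K c) (hi : Tile K i) (hj : Tile K j) (hne : i ≠ j) :
    Disjoint (Bl d c i \ Bd d c i) (Bl d c j) := by
  refine Set.disjoint_left.2 fun x hx hxj => ?_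
  have h1 : x ∈ Op d c i := by
    by_contra h
    exact hx.2 ⟨hx.1, h⟩
  have hs : ¬ Same K i j := fun h => hne (hi.eq hj h (hxj.1.2 i h1.1.2.ne').symm)
  exact h1.2.ne' (by rw [hc.sign_opp hs h1.2.le hxj.2, mul_zero])

/-- two tiles of different colours meet in a disc -/
theorem disc_opp (hS : STARB) (hN : CONEN) (ho : IsOpen K.carrier) (hc : Wt K c)
    (hs : ¬ Same K i j) (hm : Cmp K i j) : ∃ B, ConBall 2 (Bl d c i ∩ Bl d c j) B := by
  obtain ⟨a, a1, a2, a3, a4, a5⟩ := exists_mid d (c := c) hm (hc.neg hs)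
  have hP := (poly_Bl d ho c i).inter (poly_Bl d ho c j)
  have hK : IsCompact (Bl d c i ∩ Bl d c j) := isCompact_of_St d (fun _ hx => hx.1.1) hP.1
  have hW : ∀ z ∈ Gs d c, z ∈ W d i ∩ W d j → z ∈ Bl d c i ∩ Bl d c j := fun z hz h =>
    ⟨⟨W_sub_St d i h.1, by rw [hz.2, mul_zero]⟩, ⟨W_sub_St d j h.2, by rw [hz.2, mul_zero]⟩⟩
  refine ⟨_, hN (a := a) (man_Gs d hS ho hc)
    (fun x hx => ⟨hx.1.1.1, hc.sign_opp hs hx.1.2 hx.2.2⟩) hK
    (hP.locCone (fun _ hx => hx.1.1.1) hK) (hW a ⟨a1, a2⟩ ⟨⟨a1, a3⟩, ⟨a1, a4⟩⟩) fun x hx s h => ?_⟩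
  have hp : Cpt d a x := fun m n hm' hn' => by
    rcases a5 m hm' with e | e
    · rw [e]
      exact hx.1.1.2 n hn'
    · rw [e]
      exact hx.2.1.2 n hn'
  obtain ⟨b1, b2⟩ := comb d a1 hx.1.1.1 hp h.1 h.2.le
  have h1 : 0 < 1 - s := sub_pos.2 h.2
  have b3 : a + s • (x - a) ∈ W d i ∩ W d j :=
    ⟨⟨b1, by rw [b2]; exact add_pos_of_pos_of_nonneg (mul_pos h1 a3) (mul_nonneg h.1 (d.nonneg i x))⟩,
      ⟨b1, by rw [b2]; exact add_pos_of_pos_of_nonneg (mul_pos h1 a4) (mul_nonneg h.1 (d.nonneg j x))⟩⟩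
  refine ⟨hW _ ⟨b1, ?_⟩ b3, ?_⟩
  · rw [L_comb d c a1 hx.1.1.1 hp h.1 h.2.le, a2, hc.sign_opp hs hx.1.2 hx.2.2]
    ring
  · filter_upwards [mem_nhdsWithin_of_mem_nhds
      (((W_open d ho i).inter (W_open d ho j)).mem_nhds b3), self_mem_nhdsWithin] with y h2 h3
    exact hW y h3 h2

theorem conn_tiles (hS : STARB) (hN : CONEN) (hD : SMD) (ho : IsOpen K.carrier) (hc : Wt K c)
    (hi : Tile K i) (hj : Tile K j) (hne : i ≠ j) :
    IsPreconnected (Bd d c j \ Bl d c i) ∧ (Bd d c j \ Bl d c i).Nonempty := by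
  have hsp := (ball_Bl d hS ho hc j).conSphere
  by_cases hs : Same K i j
  · have hf : {k | Mid K k ∧ Same K k i ∧ Cmp K i k ∧ Cmp K j k}.Finite :=
      (finite_cmp i).subset fun _ h => h.2.2.1
    have h := hD hf.toFinset (Dsc d c) (Jc d c) hsp (fun k hk => by
      obtain ⟨h1, h2, -, h4⟩ := hf.mem_toFinset.1 hk
      exact ⟨disc_Dsc d hS hN ho hc h1, Dsc_sub_Bd d hc h1 hj (h2.trans hs) h4.symm⟩)
      fun k hk k' hk' hkk => by
        obtain ⟨h1, h2, -⟩ := hf.mem_toFinset.1 hk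
        obtain ⟨h3, h4, -⟩ := hf.mem_toFinset.1 hk'
        exact (W_disj d hkk (by unfold Mid Same at *; omega)).mono (Dsc_sub_W d hc k)
          (Dsc_sub_W d hc k')
    have he : Bd d c j \ Bl d c i = Bd d c j \ ⋃ k ∈ hf.toFinset, Dsc d c k := by
      ext x
      refine and_congr_right fun hx => not_congr ⟨fun hxi => ?_, fun h => ?_⟩
      · obtain ⟨k, h1, h2, h3, h4⟩ := exists_Dsc d ho hc hi hxi (by
          by_contra h
          exact hne (hi.eq hj hs (hx.1.1.2 i h).symm))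
        exact mem_biUnion (hf.mem_toFinset.2 ⟨h1, h2, hxi.1.2 k h3, hx.1.1.2 k h3⟩) h4
      · obtain ⟨k, hk, h1⟩ := mem_iUnion₂.1 h
        obtain ⟨h2, h3, h4, -⟩ := hf.mem_toFinset.1 hk
        exact (Dsc_sub_Bd d hc h2 hi h3 h4.symm h1).1
    rw [he]
    exact h
  · by_cases hm : Cmp K i j
    · obtain ⟨B, hB⟩ := disc_opp d hS hN ho hc hs hm
      have h := hD ({()} : Finset Unit) (fun _ => Bl d c i ∩ Bl d c j) (fun _ => B) hsp
        (fun _ _ => ⟨hB, fun x hx => (mem_Bd d hc).2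
          ⟨hx.2, Or.inr (hc.sign_opp hs hx.1.2 hx.2.2)⟩⟩) fun _ _ _ _ h => (h rfl).elim
      have he : Bd d c j \ Bl d c i =
          Bd d c j \ ⋃ k ∈ ({()} : Finset Unit), Bl d c i ∩ Bl d c j := by
        ext x
        refine and_congr_right fun hx => not_congr ⟨fun hxi => ?_, fun h => ?_⟩
        · exact mem_biUnion (Finset.mem_singleton_self ()) ⟨hxi, hx.1⟩
        · obtain ⟨_, _, h1⟩ := mem_iUnion₂.1 h
          exact h1.1
      rw [he]
      exact h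
    · have h := hD (∅ : Finset Unit) (fun _ => ∅) (fun _ => ∅) hsp
        (fun _ h => absurd h (Finset.notMem_empty _)) fun _ h => absurd h (Finset.notMem_empty _)
      have he : Bd d c j \ Bl d c i = Bd d c j \ ⋃ k ∈ (∅ : Finset Unit), (∅ : Set E3) := by
        ext x
        refine and_congr_right fun hx => not_congr ⟨fun hxi => ?_, fun h => ?_⟩
        · obtain ⟨m, h1⟩ := exists_t d hxi.1.1
          have h2 := hxi.1.2 m h1
          have h3 := hx.1.1.2 m h1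
          have h4 := dim_le_three ho m
          refine (hm ?_).elim
          unfold Tile Same at *
          rcases hi with hi | hi
          · exact Or.inl ((h2.sub (by omega)).trans (h3.symm.sub (by omega)))
          · exact Or.inr ((h3.sub (by omega)).trans (h2.symm.sub (by omega)))
        · obtain ⟨_, h1, _⟩ := mem_iUnion₂.1 h
          exact absurd h1 (Finset.notMem_empty _)
      rw [he]
      exact h

theorem Wt.neg_of (hc : Wt K c) (h : K.dim i ≤ 1) : c i < 0 := (hc i).1 h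

theorem Wt.pos_of (hc : Wt K c) (h : 2 ≤ K.dim i) : 0 < c i := (hc i).2 (by omega)

theorem cover_black (hc : Wt K c) (hx : x ∈ K.carrier) (h : L d c x ≤ 0) :
    ∃ v, K.dim v = 0 ∧ x ∈ Bl d c v := by
  obtain ⟨m, hm, hmin⟩ := exists_min_image {j | d.t j x ≠ 0} K.dim (finite_supp d x)
    (exists_t d hx)
  obtain ⟨v, h1, h2⟩ := exists_vertex m
  exact ⟨v, h2, ⟨hx, fun j hj => Or.inl (h1.trans (Cmp.sub (d.chain x m j hm hj) (hmin j hj)))⟩,
    mul_nonneg_of_nonpos_of_nonpos (hc.neg_of (by omega)).le h⟩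

theorem cover_white (ho : IsOpen K.carrier) (hc : Wt K c) (hx : x ∈ K.carrier)
    (h : 0 ≤ L d c x) : ∃ q, K.dim q = 3 ∧ x ∈ Bl d c q := by
  obtain ⟨m, hm⟩ := K.exists_ocell hx
  obtain ⟨q, h1, h2⟩ := exists_three ho m
  exact ⟨q, h2, ⟨hx, fun j hj => Or.inr (((d.top m x hm).2 j hj).trans h1)⟩,
    mul_nonneg (hc.pos_of (by omega)).le h⟩

theorem star_nhds (ho : IsOpen K.carrier) (hx : x ∈ St d i) : K.star i ∈ 𝓝 x := by
  obtain ⟨m, hm⟩ := K.exists_ocell hx.1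
  filter_upwards [K.eventually_coface hm, ho.mem_nhds hx.1] with y hy hyc
  obtain ⟨n, hn⟩ := K.mem_carrier.1 hyc
  refine mem_iUnion₂.2 ⟨n, ?_, hn⟩
  rcases hx.2 m (d.top m x hm).1 with h | h
  · obtain ⟨z, hz⟩ := K.cell_nonempty i
    exact ⟨z, hy n hn (h hz), hz⟩
  · exact ⟨x, hy n hn hm.1, h hm.1⟩

/-! ### enlarged discs -/

theorem mul_L_up (c : K.ι → ℝ) (k : K.ι) (r : ℝ) (x : E3) :
    up c k r k * L d (up c k r) x = (1 + r) * (c k * L d c x + r * (c k * c k) * d.t k x) := by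
  rw [up_self, L_up]
  ring

theorem Bl_sub_up (hc : Wt K c) {r : ℝ} (hr : 0 < r) (hx : x ∈ Bl d c k) (hW : x ∈ W d k) :
    x ∈ Op d (up c k r) k := by
  refine ⟨hW, ?_⟩
  rw [mul_L_up]
  exact mul_pos (by linarith) (add_pos_of_nonneg_of_pos hx.2
    (mul_pos (mul_pos hr (mul_self_pos.2 (hc.ne k))) hW.2))

theorem Dsc_sub_up (hc : Wt K c) (k : K.ι) {r : ℝ} (hr : 0 < r) :
    Dsc d c k ⊆ Dsc d (up c k r) k \ Jc d (up c k r) k := fun x hx => by
  have h := Bl_sub_up d hc hr hx.1 (Dsc_sub_W d hc k hx)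
  exact ⟨⟨Op_sub d _ k h, hx.2⟩, fun h' => h.2.ne' (by rw [h'.2, mul_zero])⟩

theorem up_inter (hc : Wt K c) (k : K.ι) {r : ℝ} (hr : 0 < r) :
    Dsc d (up c k r) k ∩ Gs d c = Jc d c k :=
  Set.ext fun _ => ⟨fun h => ⟨⟨⟨h.1.1.1, by rw [h.2.2, mul_zero]⟩, h.1.2⟩, h.2.2⟩,
    fun h => ⟨(Dsc_sub_up d hc k hr h.1).1, h.1.1.1.1, h.2⟩⟩

theorem up_diff {r : ℝ} (hx : x ∈ Dsc d (up c k r) k \ Dsc d c k) : c k * L d c x < 0 := by
  by_contra h
  exact hx.2 ⟨⟨hx.1.1.1, not_lt.1 h⟩, hx.1.2⟩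

theorem Dsc_diff (hc : Wt K c) (hx : x ∈ Dsc d c k \ Jc d c k) : x ∈ Op d c k :=
  ⟨Dsc_sub_W d hc k hx.1,
    hx.1.1.2.lt_of_ne (mul_ne_zero (hc.ne k) fun h => hx.2 ⟨hx.1, h⟩).symm⟩

/-- the open disc is two-sided -/
theorem two_Dsc (hS : STARB) (hN : CONEN) (ho : IsOpen K.carrier) (hc : Wt K c) (hk : Mid K k) :
    ∃ P M, TwoSided (Op d c k) (Dsc d c k \ Jc d c k) P M := by
  obtain ⟨i, j, hne, hij⟩ := exists_two ho hk
  obtain ⟨hi, hsi, hmi⟩ := (hij i).2 (Or.inl rfl)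
  obtain ⟨hj, hsj, hmj⟩ := (hij j).2 (Or.inr rfl)
  have hcl : ∀ m, Tile K m → Same K k m → Cmp K k m →
      Dsc d c k \ Jc d c k ⊆ closure (Op d c k ∩ W d m) := fun m hm hs hmm x hx => by
    have h1 := (Dsc_sub_Bd d hc hk hm hs hmm hx.1).1.1
    have hp := cpt_b_right d h1
    refine mem_closure_of_ray (y := d.b m) ?_
    filter_upwards [eventually_ray ((Op_open d ho c k).mem_nhds (Dsc_diff d hc hx)) (d.b m)]
      with s ⟨h0, h3, h4⟩
    obtain ⟨b1, b2⟩ := comb d h1.1 (b_mem d m) hp h0.le h3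
    refine ⟨h4, b1, ?_⟩
    rw [b2, t_b_self, mul_one]
    exact add_pos_of_nonneg_of_pos (mul_nonneg (sub_nonneg.2 h3) (d.nonneg m x)) h0
  refine ⟨Op d c k ∩ W d i, Op d c k ∩ W d j, Op_open d ho c k, fun x hx => Dsc_diff d hc hx,
    fun x hx h => ⟨(poly_Dsc d ho c k).1 x hx.1.1 (closure_mono sdiff_subset h),
      fun h' => hx.2.ne' (by rw [h'.2, mul_zero])⟩,
    (disc_Dsc d hS hN ho hc hk).plMan, (Op_open d ho c k).inter (W_open d ho i),
    (Op_open d ho c k).inter (W_open d ho j), ?_, ?_, hcl i hi hsi hmi, hcl j hj hsj hmj⟩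
  · exact Set.disjoint_left.2 fun x h1 h2 => hne (hi.eq hj (hsi.symm.trans hsj)
      (d.chain x i j h1.2.2.ne' h2.2.2.ne'))
  · ext x
    constructor
    · rintro (h | h)
      · exact ⟨h.1, fun h' => hi.ne hk (h'.1.2 i h.2.2.ne' hsi)⟩
      · exact ⟨h.1, fun h' => hj.ne hk (h'.1.2 j h.2.2.ne' hsj)⟩
    · rintro ⟨h1, h2⟩
      by_contra hn
      refine h2 ⟨⟨Op_sub d c k h1, fun m hm hs => ?_⟩,
        fun h' => h1.2.ne' (by rw [h'.2, mul_zero])⟩
      by_contra hmk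
      have h3 := d.chain x k m h1.1.2.ne' hm
      rcases (hij m).1 ⟨hk.tile ho hs h3 hmk, hs, h3⟩ with e | e
      · exact hn (Or.inl ⟨h1, h1.1.1, e ▸ t_pos d hm⟩)
      · exact hn (Or.inr ⟨h1, h1.1.1, e ▸ t_pos d hm⟩)

theorem Dsc_sub_ocell (hc : Wt K c) (hk : K.dim k = 2) : Dsc d c k ⊆ K.ocell k := fun x hx => by
  obtain ⟨m, hm⟩ := K.exists_ocell hx.1.1.1
  have h1 := K.dim_le ((d.top m x hm).2 k (Dsc_sub_W d hc k hx).2.ne')
  rwa [hx.2 m (d.top m x hm).1 (by unfold Same; omega)] at hm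

theorem cell_inter_sub (hc : Wt K c) (hk : K.dim k = 2) (hx : x ∈ K.cell k)
    (h : 0 ≤ L d c x) : x ∈ Dsc d c k := by
  obtain ⟨m, hm, h1⟩ := K.exists_face hx
  have h2 : ∀ j, d.t j x ≠ 0 → K.cell j ⊆ K.cell k := fun j hj =>
    ((d.top m x hm).2 j hj).trans h1
  exact ⟨⟨⟨K.cell_subset_carrier k hx, fun j hj => Or.inr (h2 j hj)⟩,
    mul_nonneg (hc.pos_of hk.ge).le h⟩,
    fun j hj hs => K.eq_of_subset_of_dim_le (h2 j hj) (by unfold Same at hs; omega)⟩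

theorem exists_ann (hS : STARB) (hN : CONEN) (hB : BIC) (ho : IsOpen K.carrier) (hc : Wt K c)
    (k : K.ι) : ∃ A : Set E3, Mid K k → A ⊆ W d k ∩ Gs d c ∧ (∀ x ∈ Jc d c k, A ∈ 𝓝[Gs d c] x) ∧
      ∃ χ : ConHomeo (Jc d c k ×ˢ Icc (-1:ℝ) 1) A, ∀ x ∈ Jc d c k, χ.toFun (x, 0) = x := by
  by_cases hk : Mid K k
  · obtain ⟨A, χ, h1, h2, h3⟩ := hB (ball_Bl d hS ho hc k).conSphere
      ((mod_thm (E := E3)).2.2.1.2 (disc_Dsc d hS hN ho hc hk).conSphere)
      (fun x hx => (mem_Bd d hc).2 ⟨hx.1.1, Or.inr hx.2⟩) (W_open d ho k)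
      fun x hx => Dsc_sub_W d hc k hx.1
    refine ⟨A, fun _ => ⟨?_, fun x hx => ?_, χ, h1⟩⟩
    · rwa [inter_comm, ← Bd_inter_W d hc]
    · rw [← nhds_Bd d ho hc (Dsc_sub_W d hc k hx.1)]
      exact h3 x hx
  · exact ⟨∅, fun h => (hk h).elim⟩

/-! ### the weights -/

theorem exists_weights {F : Set E3} (hF : F ⊆ K.carrier) (hcl : ClosedIn F K.carrier)
    (hd : Disjoint F (K.skel 1)) : ∃ c, Wt K c ∧ ∀ x ∈ F, 0 < L d c x := by
  classical
  set q : K.ι → ℝ := fun j => if K.dim j ≤ 1 then 0 else 1 with hq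
  have hq0 : ∀ j, 0 ≤ q j := fun j => by simp only [hq]; split_ifs <;> norm_num
  have hpos : ∀ x ∈ F, 0 < L d q x := fun x hx => by
    obtain ⟨S, hS⟩ := exists_supp d x
    obtain ⟨m, hm⟩ := K.exists_ocell (hF hx)
    have h1 : ¬ K.dim m ≤ 1 := fun h =>
      Set.disjoint_left.1 hd hx ((K.mem_skel_iff_dim hm).2 h)
    rw [L_eq d q fun i hi => (hS i).2 hi]
    refine Finset.sum_pos' (fun j _ => mul_nonneg (hq0 j) (d.nonneg j x))
      ⟨m, (hS m).2 (d.top m x hm).1, ?_⟩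
    simp only [hq, if_neg h1, one_mul]
    exact t_pos d (d.top m x hm).1
  have hδ : ∀ m, ∃ δ > 0, ∀ x ∈ F ∩ K.cell m, δ ≤ L d q x := fun m => by
    have hK : IsCompact (F ∩ K.cell m) := (K.isCompact_cell m).of_isClosed_subset
      (closure_subset_iff_isClosed.1 fun x hx =>
        have h1 := closure_minimal inter_subset_right (K.isClosed_cell m) hx
        ⟨hcl x (K.cell_subset_carrier m h1) (closure_mono inter_subset_left hx), h1⟩)
      inter_subset_right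
    exact hK.exists_forall_le' ((pl_L d q).1.mono fun x hx => hF hx.1) fun x hx => hpos x hx.1
  choose δ hδ0 hδ using hδ
  refine ⟨fun j => if K.dim j ≤ 1 then -1 else
    1 + ∑ m ∈ (K.finite_cofaces j).toFinset, (δ m)⁻¹, fun j => ⟨fun h => ?_, fun h => ?_⟩,
    fun x hx => ?_⟩
  · simp only [if_pos h]
    norm_num
  · simp only [if_neg h]
    exact add_pos_of_pos_of_nonneg one_pos (Finset.sum_nonneg fun m _ => (inv_pos.2 (hδ0 m)).le)
  · obtain ⟨S, hS⟩ := exists_supp d x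
    obtain ⟨m, hm⟩ := K.exists_ocell (hF hx)
    have h1 := hδ m x ⟨hx, hm.1⟩
    have h2 := (sum_t d (hF hx) fun i hi => (hS i).2 hi).1
    have h3 := hpos x hx
    have h4 : 1 ≤ (δ m)⁻¹ * L d q x := by
      rw [← div_eq_inv_mul, one_le_div (hδ0 m)]
      exact h1
    rw [L_eq d q fun i hi => (hS i).2 hi] at h3 h4
    rw [L_eq d _ fun i hi => (hS i).2 hi]
    refine lt_of_lt_of_le ?_ (Finset.sum_le_sum (f := fun j =>
      (δ m)⁻¹ * (q j * d.t j x) + q j * d.t j x - d.t j x) fun j hj => ?_)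
    · rw [Finset.sum_sub_distrib, Finset.sum_add_distrib, ← Finset.mul_sum, h2]
      linarith
    · have h5 := d.nonneg j x
      simp only [hq]
      split_ifs with h
      · linarith
      · have h6 : (δ m)⁻¹ ≤ ∑ n ∈ (K.finite_cofaces j).toFinset, (δ n)⁻¹ :=
          Finset.single_le_sum (f := fun n => (δ n)⁻¹) (fun n _ => (inv_pos.2 (hδ0 n)).le)
            ((K.finite_cofaces j).mem_toFinset.2 ((d.top m x hm).2 j ((hS j).1 hj)))
        nlinarith [mul_le_mul_of_nonneg_right h6 h5]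

theorem model_of (hd : DER) (hS : STARB) (hN : CONEN) (hD : SMD) (hB : BIC) : MODEL := by
  intro K F hK ho hF hcl hdis
  choose b hb using K.ocell_nonempty
  obtain ⟨d, -⟩ := hd K hK b hb
  obtain ⟨c, hc, hcF⟩ := exists_weights d hF hcl hdis
  choose A hA using exists_ann d hS hN hB ho hc
  refine ⟨
    { G := Gs d c
      P := {y ∈ K.carrier | 0 < L d c y}
      M := {y ∈ K.carrier | L d c y < 0}
      T := Bl d c
      B := Bd d c
      D := Dsc d c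
      J := Jc d c
      X := fun k => Dsc d (up c k 1) k
      BX := fun k => Jc d (up c k 1) k
      A := A
      W := W d
      two := two_Gs d hS ho hc
      F_sub := fun x hx => ⟨hF hx, hcF x hx⟩
      skel_sub := fun x hx => ?_
      ball := fun i _ => ball_Bl d hS ho hc i
      T_star := fun i x hx => St_sub_star d (Cmp.refl i) hx.1
      T_nhds := fun i _ x hx => star_nhds d ho hx.1
      T_lf := fun x hx => ?_
      cover := fun x hx => ?_
      pair := fun i j hi hj hne => ⟨disj_tiles d hc hi hj hne, conn_tiles d hS hN hD ho hc hi hj hne⟩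
      black := fun i hi => ⟨fun x hx => ?_, ?_⟩
      black_cover := fun x hx => ?_
      bd_union := fun x => ⟨fun ⟨i, hi, hx⟩ => ?_, ?_⟩
      bd_sub := fun i hi x hx => ?_
      disc := fun k hk => disc_Dsc d hS hN ho hc hk
      big := fun k hk => disc_Dsc d hS hN ho (hc.up k zero_le_one) hk
      D_sub := fun k _ => Dsc_sub_up d hc k one_pos
      X_inter := fun k _ => up_inter d hc k one_pos
      W_open := W_open d ho
      W_star := fun k => (W_sub_St d k).trans (St_sub_star d (Cmp.refl k))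
      W_lf := fun x hx => ?_
      W_disj := fun k k' h1 h2 => W_disj d h1 h2
      X_sub := fun k _ => Dsc_sub_W d (hc.up k zero_le_one) k
      A_sub := fun k hk => (hA k hk).1
      A_nhds := fun k hk => (hA k hk).2.1
      ann := fun k hk => (hA k hk).2.2
      D_inter := fun k k' hk hk' hne x hx => ⟨hx.1.1.1.1, hc.sign_opp (fun hs => hne (hk.eq hk' hs
        (hx.1.1.1.2 k' (Dsc_sub_W d hc k' hx.2).2.ne'))) hx.1.1.2 hx.2.1.2⟩
      face := fun k hk => ⟨Dsc_sub_ocell d (hc.up k zero_le_one) hk, fun x hx => ?_,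
        fun x hx => ?_, fun x hx => cell_inter_sub d hc hk hx.1 hx.2.2.le⟩
      edge := fun k hk => ⟨fun x hx => ?_, fun x hx => ?_, ?_⟩ }⟩
  · have h1 := K.skel_subset_carrier 1 hx
    obtain ⟨m, hm⟩ := K.exists_ocell h1
    have h2 := (K.mem_skel_iff_dim hm).1 hx
    have h3 := neg_of_opp d (a := 1) (c := c) h1 fun j hj => by
      rw [one_mul]
      exact hc.neg_of ((K.dim_le ((d.top m x hm).2 j hj)).trans h2)
    exact ⟨h1, by rwa [one_mul] at h3⟩
  · obtain ⟨U, hU, h⟩ := St_lf d x hx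
    exact ⟨U, hU, h.subset fun i ⟨y, h1, h2⟩ => ⟨y, h1.1, h2⟩⟩
  · rcases le_total (L d c x) 0 with h | h
    · obtain ⟨v, h1, h2⟩ := cover_black d hc hx h
      exact ⟨v, Or.inl h1, h2⟩
    · obtain ⟨v, h1, h2⟩ := cover_white d ho hc hx h
      exact ⟨v, Or.inr h1, h2⟩
  · have h1 : x ∈ Op d c i := by
      by_contra h
      exact hx.2 ⟨hx.1, h⟩
    exact ⟨h1.1.1, neg_of_mul_pos_right h1.2 (hc.neg_of (by omega)).le⟩
  · obtain ⟨e, h1, h2⟩ := exists_edge ho hi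
    exact ⟨e, h2, Dsc_sub_Bd d hc (Or.inl h2) (Or.inl hi) (by unfold Same; omega) (Or.inr h1)⟩
  · rcases hx with h | h
    · exact cover_black d hc h.1 h.2.le
    · exact cover_black d hc h.1 h.2.le
  · obtain ⟨h1, h2 | h2⟩ := (mem_Bd d hc).1 hx
    · obtain ⟨k, h3, -, -, h4⟩ := exists_Dsc d ho hc hi h1 h2
      exact Or.inr ⟨k, h3, h4⟩
    · exact Or.inl ⟨h1.1.1, h2⟩
  · rintro (h | ⟨k, hk, h⟩)
    · obtain ⟨v, h1, h2⟩ := cover_black d hc h.1 h.2.le
      exact ⟨v, Or.inl h1, (mem_Bd d hc).2 ⟨h2, Or.inr h.2⟩⟩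
    · obtain ⟨i, j, -, hij⟩ := exists_two ho hk
      obtain ⟨hi, hs, hm⟩ := (hij i).2 (Or.inl rfl)
      exact ⟨i, hi, Dsc_sub_Bd d hc hk hi hs hm h⟩
  · obtain ⟨h1, h2 | h2⟩ := (mem_Bd d hc).1 hx
    · obtain ⟨k, h3, h4, h5, h6⟩ := exists_Dsc d ho hc hi h1 h2
      exact Or.inr ⟨k, h3, h6, (W_sub_St d k).trans (St_sub_star d (h1.1.2 k h5).symm),
        by unfold Tile Mid Same at *; omega⟩
    · exact Or.inl ⟨h1.1.1, h2⟩
  · obtain ⟨U, hU, h⟩ := St_lf d x hx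
    exact ⟨U, hU, h.subset fun i ⟨y, h1, h2⟩ => ⟨y, W_sub_St d i h1, h2⟩⟩
  · exact ⟨hx.1.1.1.1, (mul_pos_iff_of_pos_left (hc.pos_of hk.ge)).1 (Dsc_diff d hc hx).2⟩
  · exact ⟨hx.1.1.1.1, neg_of_mul_neg_right (up_diff d hx) (hc.pos_of hk.ge).le⟩
  · exact ⟨hx.1.1.1.1, neg_of_mul_pos_right (Dsc_diff d hc hx).2 (hc.neg_of hk.le).le⟩
  · exact ⟨hx.1.1.1.1, pos_of_mul_neg_right (up_diff d hx) (hc.neg_of hk.le).le⟩
  · have h1 := hc.up k zero_le_one
    obtain ⟨P, M, h⟩ := two_Dsc d hS hN ho (h1.up k zero_le_one) (Or.inl hk)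
    exact ⟨_, _, P, M, h, fun x hx => hx.1, Dsc_sub_up d h1 k one_pos⟩

end P073.T0
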