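import Vale.Agent.P073Z.TOPO.Cov
import Vale.Agent.P073Z.GenBV
import Vale.Agent.P073Z.MAN.Ex
import Vale.Agent.P073Z.A1b
import Vale.Agent.P073Z.A2.PL

/-!
# Transfer of surfaces from the target to the source
-/

open Set Metric Topology Filter MeasureTheory
open scoped ENNReal NNReal

namespace P073

/-- transfer of a two-sided surface together with a bicollar -/
def TR1 : Prop := ∀ {Ω Λ U G P M : Set E3} {f f' : E3 → E3} {δ : E3 → ℝ},
  IsOpen Ω → IsOpen Λ → HomeoOn f f' Ω Λ → GenBV f Ω → IsOpen U → U ⊆ Λ → G ⊆ U →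
  ClosedIn G U → PLMan 2 G → IsOpen P → IsOpen M → Disjoint P M → P ∪ M = U \ G →
  G ⊆ closure P → G ⊆ closure M → Gauge δ G →
  ∃ (Y : Set E3) (κ : ConHomeo (G ×ˢ Icc (-1:ℝ) 1) Y) (lam : E3 → ℝ),
    Y ⊆ Ω ∩ f ⁻¹' U ∧ ClosedIn Y (Ω ∩ f ⁻¹' U) ∧ PLOn lam (Ω ∩ f ⁻¹' U) ∧
    (∀ u ∈ G, ∀ s ∈ Icc (-1:ℝ) 1, lam (κ.toFun (u, s)) = s ∧
      dist (f (κ.toFun (u, s))) u < δ u) ∧
    (∀ y ∈ (Ω ∩ f ⁻¹' U) \ Y, lam y = 1 ∨ lam y = -1) ∧
    ∀ x ∈ Ω ∩ f ⁻¹' U, (∀ u ∈ G, δ u ≤ dist (f x) u) →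
      (f x ∈ P → lam x = 1) ∧ (f x ∈ M → lam x = -1)

/-- transfer of a compact piece of a two-sided surface -/
def TR1D : Prop := ∀ {Ω Λ U G P M X : Set E3} {f f' : E3 → E3} {δ : ℝ},
  IsOpen Ω → IsOpen Λ → HomeoOn f f' Ω Λ → GenBV f Ω → IsOpen U → U ⊆ Λ → G ⊆ U →
  ClosedIn G U → PLMan 2 G → IsOpen P → IsOpen M → Disjoint P M → P ∪ M = U \ G →
  G ⊆ closure P → G ⊆ closure M → ConicalSet X → X ⊆ G → 0 < δ →
  ∃ (D₀ : Set E3) (d : ConHomeo X D₀), D₀ ⊆ Ω ∧ ∀ x ∈ X, dist (f (d.toFun x)) x < δ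

/-- transfer of a disc in a two-cell, with the count of the crossings -/
def TR2 : Prop := ∀ {Ω Λ : Set E3} {f f' : E3 → E3} {ι : Type} (a b : ι → E3) (K : RCx E3)
  (S : K.ι) {X : Set E3} {δ : ℝ}, IsOpen Ω → IsOpen Λ → HomeoOn f f' Ω Λ → GenBV f Ω →
  (∀ e, segment ℝ (a e) (b e) ⊆ Ω ∧ segVar f (a e) (b e) < ⊤) →
  LFIn (fun e => segment ℝ (a e) (b e)) Ω → K.carrier = Λ → GoodLev K f a b →
  K.dim S = 2 → IsCompact X → ConicalSet X → X ⊆ K.ocell S → 0 < δ →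
  ∃ (D₀ : Set E3) (d : ConHomeo X D₀), D₀ ⊆ Ω ∧ (∀ x ∈ X, dist (f (d.toFun x)) x < δ) ∧
    ∀ e, ((segment ℝ (a e) (b e) ∩ D₀).encard : ℝ≥0∞) ≤ cnt f (a e) (b e) (K.cell S)

namespace TR

/-- the middle slice of a bicollar -/
theorem exists_slice {G Y X : Set E3} (κ : ConHomeo (G ×ˢ Icc (-1:ℝ) 1) Y) (hX : ConicalSet X)
    (hXG : X ⊆ G) : ∃ d : ConHomeo X (κ.toFun '' (X ×ˢ {0})), ∀ x, d.toFun x = κ.toFun (x, 0) := by
  have h0 : ConicalSet (X ×ˢ ({0} : Set ℝ)) :=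
    A2.conicalSet_prod hX (Convex.conicalSet (convex_singleton _))
  let j : ConHomeo X (X ×ˢ ({0} : Set ℝ)) :=
    { toFun := fun x => (x, 0)
      invFun := fun q => q.1
      mapsTo := fun x hx => ⟨hx, rfl⟩
      mapsTo_inv := fun q hq => hq.1
      left_inv := fun x _ => rfl
      right_inv := fun q hq => Prod.ext rfl (Eq.symm hq.2)
      cont := by fun_prop
      cont_inv := by fun_prop
      conical := (conicalOn_id hX).prodMk (conicalOn_const 0 hX) }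
  exact ⟨j.trans (κ.restr h0 (prod_mono hXG (by simp))), fun _ => rfl⟩

/-- transfer through a product structure in the target -/
theorem tr0 (ps : PS) {Ω Λ V G : Set E3} {f f' π : E3 → E3} {ψ : E3 → ℝ} {σ : E3 × ℝ → E3}
    {ι : Type} (a b : ι → E3) {𝓛 : Set ℝ} {δ : E3 → ℝ} (hΩ : IsOpen Ω)
    (hf : HomeoOn f f' Ω Λ) (hB : GenBV f Ω) (hV : IsOpen V) (hVΛ : V ⊆ Λ) (hG : PLMan 2 G)
    (h0 : HomeoOn (fun y => (π y, ψ y)) σ V (G ×ˢ Ioo (-1) 1)) (hL : LocallyLipschitzOn V ψ)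
    (hw : ∀ e, segment ℝ (a e) (b e) ⊆ Ω ∧ segVar f (a e) (b e) < ⊤)
    (hlf : LFIn (fun e => segment ℝ (a e) (b e)) Ω)
    (h𝓛 : volume (𝓛 ∩ Ioo (-1 / 2) (1 / 2)) ≠ 0) (hδ : Gauge δ G)
    (hσ : ∀ u ∈ G, ∀ s ∈ Ioo (-1:ℝ) 1, dist (σ (u, s)) u < δ u) :
    ∃ c ∈ 𝓛 ∩ Ioo (-1 / 2) (1 / 2), ∃ (Y : Set E3) (κ : ConHomeo (G ×ˢ Icc (-1:ℝ) 1) Y)
      (lam : E3 → ℝ), Y ⊆ Ω ∩ f ⁻¹' V ∧ ClosedIn Y (Ω ∩ f ⁻¹' V) ∧ PLOn lam (Ω ∩ f ⁻¹' V) ∧
      (∀ u ∈ G, ∀ s ∈ Icc (-1:ℝ) 1, lam (κ.toFun (u, s)) = s ∧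
        dist (f (κ.toFun (u, s))) u < δ u) ∧ (∀ y ∈ Y, |ψ (f y)| < 3 / 4) ∧
      (∀ y ∈ (Ω ∩ f ⁻¹' V) \ Y, lam y = 1 ∨ lam y = -1) ∧
      (∀ x ∈ Ω ∩ f ⁻¹' V, (3 / 4 ≤ ψ (f x) → lam x = 1) ∧ (ψ (f x) ≤ -(3 / 4) → lam x = -1)) ∧
      ∀ e, ∀ u ∈ G, κ.toFun (u, 0) ∈ segment ℝ (a e) (b e) → ψ (f (κ.toFun (u, 0))) = c := by
  have hW : IsOpen (Ω ∩ f ⁻¹' V) := hf.cont.isOpen_inter_preimage hΩ hV
  have hm : MapsTo f (Ω ∩ f ⁻¹' V) V := fun x hx => hx.2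
  have hc : ContinuousOn f (Ω ∩ f ⁻¹' V) := hf.cont.mono inter_subset_left
  have hI : ∀ c ∈ Icc (-1 / 2 : ℝ) (1 / 2), c ∈ Ioo (-1:ℝ) 1 := fun c hc =>
    ⟨by linarith [hc.1], by linarith [hc.2]⟩
  have hσΛ : MapsTo σ (G ×ˢ Ioo (-1) 1) Λ := fun q hq => hVΛ (h0.mapsTo_inv hq)
  have hψσ : ∀ q ∈ G ×ˢ Ioo (-1:ℝ) 1, ψ (σ q) = q.2 := fun q hq =>
    congrArg Prod.snd (h0.right_inv hq)
  obtain ⟨ε, hε, hP⟩ := TP.exists_gauge (X := G) (fun u r => ∀ c ∈ Icc (-1 / 2 : ℝ) (1 / 2),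
      ∀ x, dist x (f' (σ (u, c))) < r → dist (f x) u < δ u ∧ |ψ (f x)| < 3 / 4)
    (fun u r r' _ hr h c hc x hx => h c hc x (hx.trans_le hr)) fun u₀ hu₀ => by
      have h1 := isCompact_Icc.eventually_forall_of_forall_eventually (x₀ := ((u₀, 0) : E3 × E3))
        (K := Icc (-1 / 2 : ℝ) (1 / 2)) (P := fun z c => (z.1, c) ∈ G ×ˢ Ioo (-1:ℝ) 1 →
          dist (f (f' (σ (z.1, c)) + z.2)) z.1 < δ z.1 ∧
            |ψ (f (f' (σ (z.1, c)) + z.2))| < 3 / 4) fun c hc => by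
        have hq : (u₀, c) ∈ G ×ˢ Ioo (-1:ℝ) 1 := ⟨hu₀, hI c hc⟩
        set T : Set ((E3 × E3) × ℝ) := {z | (z.1.1, z.2) ∈ G ×ˢ Ioo (-1:ℝ) 1}
        refine eventually_nhdsWithin_iff.1 (?_ : ∀ᶠ z : (E3 × E3) × ℝ in 𝓝[T] ((u₀, 0), c), _)
        have a1 : ContinuousOn (fun z : (E3 × E3) × ℝ => f' (σ (z.1.1, z.2)) + z.1.2) T :=
          ((hf.cont_inv.comp h0.cont_inv hσΛ).comp (f := fun z : (E3 × E3) × ℝ => (z.1.1, z.2))
            (by fun_prop) fun z hz => hz).add (by fun_prop)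
        have a2 : f (f' (σ (u₀, c)) + 0) = σ (u₀, c) := by
          rw [add_zero, hf.right_inv (hσΛ hq)]
        have a3 : ContinuousWithinAt (fun z : (E3 × E3) × ℝ => f (f' (σ (z.1.1, z.2)) + z.1.2))
            T ((u₀, 0), c) :=
          ContinuousAt.comp_continuousWithinAt (g := f) (hf.cont.continuousAt (hΩ.mem_nhds (by
            simpa using hf.mapsTo_inv (hσΛ hq)))) (a1 _ hq)
        have a4 : ContinuousWithinAt
            (fun z : (E3 × E3) × ℝ => ψ (f (f' (σ (z.1.1, z.2)) + z.1.2))) T ((u₀, 0), c) :=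
          ContinuousAt.comp_continuousWithinAt (g := ψ) (hL.continuousOn.continuousAt
            (hV.mem_nhds (by
              simp only [a2]
              exact h0.mapsTo_inv hq))) a3
        have a5 : ContinuousWithinAt (fun z : (E3 × E3) × ℝ => δ z.1.1) T ((u₀, 0), c) :=
          (hδ.1.comp (f := fun z : (E3 × E3) × ℝ => z.1.1) (by fun_prop) fun z hz => hz.1) _ hq
        refine Eventually.and (Tendsto.eventually_lt
          (a3.dist (continuous_fst.fst.continuousWithinAt)) a5 ?_)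
          (Tendsto.eventually_lt a4.abs tendsto_const_nhds ?_)
        · simp only [a2]
          exact hσ u₀ hu₀ c hq.2
        · simp only [a2, hψσ _ hq]
          exact abs_lt.2 ⟨by linarith [hc.1], by linarith [hc.2]⟩
      obtain ⟨r, hr, hb⟩ := Metric.mem_nhds_iff.1 h1
      refine ⟨r, hr, ?_⟩
      filter_upwards [mem_nhdsWithin_of_mem_nhds (ball_mem_nhds u₀ hr), self_mem_nhdsWithin]
        with u hu huG c hc x hx
      have h2 := hb (show (u, x - f' (σ (u, c))) ∈ ball ((u₀, 0) : E3 × E3) r by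
        rw [← ball_prod_same]
        exact ⟨hu, by simpa [dist_eq_norm] using hx⟩) c hc ⟨huG, hI c hc⟩
      simpa using h2
  obtain ⟨c, hc𝓛, Y, κ, lam, h1, h2, h3, h4, h5, h6, h7⟩ := ps (G := G) (V := Ω ∩ f ⁻¹' V)
    (π := π ∘ f) (ψ := ψ ∘ f) (σ := f' ∘ σ) a b hG hW
    { mapsTo := h0.mapsTo.comp hm
      mapsTo_inv := fun q hq => ⟨hf.mapsTo_inv (hσΛ hq), by
        simp only [mem_preimage, Function.comp, hf.right_inv (hσΛ hq)]
        exact h0.mapsTo_inv hq⟩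
      left_inv := fun x hx => by
        simp only [Function.comp]
        rw [h0.left_inv hx.2, hf.left_inv hx.1]
      right_inv := fun q hq => by
        simp only [Function.comp, hf.right_inv (hσΛ hq)]
        exact h0.right_inv hq
      cont := h0.cont.comp hc hm
      cont_inv := hf.cont_inv.comp h0.cont_inv hσΛ }
    (hB.comp inter_subset_left hc hm hL) (hlf.mono inter_subset_left)
    (fun e x hx y hy hs => segVar_comp_lt_top hL (hc.mono hs) (hm.mono_left hs)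
      ((segVar_mono f hx hy).trans_lt (hw e).2)) h𝓛 hε
  have hc' : c ∈ Icc (-1 / 2 : ℝ) (1 / 2) := Ioo_subset_Icc_self hc𝓛.2
  refine ⟨c, hc𝓛, Y, κ, lam, h1, h2, h3, fun u hu s hs => ⟨(h4 u hu s hs).1,
    (hP u hu c hc' _ (h4 u hu s hs).2).1⟩, fun y hy => ?_, h5, fun x hx => ?_, h7⟩
  · obtain ⟨⟨u, s⟩, hq, rfl⟩ := κ.image_eq.symm ▸ hy
    exact (hP u hq.1 c hc' _ (h4 u hq.1 s hq.2).2).2
  · have h8 : 3 / 4 ≤ |ψ (f x)| → ∀ u ∈ G, ε u ≤ dist x ((f' ∘ σ) (u, c)) := fun h u hu =>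
      not_lt.1 fun hlt => absurd (hP u hu c hc' x hlt).2 (not_lt.2 h)
    exact ⟨fun h => (h6 x hx (h8 (h.trans (le_abs_self _)))).1
        (show c < ψ (f x) by linarith [hc'.2]),
      fun h => (h6 x hx (h8 (le_abs.2 (Or.inr (by linarith))))).2
        (show ψ (f x) < c by linarith [hc'.1])⟩

/-- a plane is a surface -/
theorem plMan_plane (ℓ : E3 →ᵃ[ℝ] ℝ) (hℓ : ℓ.linear ≠ 0) {p : E3} (hp : ℓ p = 0) :
    PLMan 2 {y | ℓ y = 0} := by
  have hr : Module.finrank ℝ (Fin 2 → ℝ) = Module.finrank ℝ (LinearMap.ker ℓ.linear) := by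
    have h1 := LinearMap.finrank_range_add_finrank_ker ℓ.linear
    have h2 : LinearMap.range ℓ.linear = ⊤ := LinearMap.range_eq_top.2
      (LinearMap.surjective_of_ne_zero hℓ)
    rw [h2] at h1
    simp at h1 ⊢
    omega
  let j : (Fin 2 → ℝ) →ₗ[ℝ] E3 :=
    (LinearMap.ker ℓ.linear).subtype ∘ₗ (LinearEquiv.ofFinrankEq _ _ hr).toLinearMap
  have hj : LinearMap.ker j = ⊥ := LinearMap.ker_eq_bot.2
    (Subtype.val_injective.comp (LinearEquiv.ofFinrankEq _ _ hr).injective)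
  obtain ⟨r, hrj⟩ := j.exists_leftInverse_of_injective hj
  have hrj' : ∀ x, r (j x) = x := fun x => LinearMap.congr_fun hrj x
  have hv : ∀ v, ℓ (v + p) = ℓ.linear v := fun v => by
    have := ℓ.map_vadd p v
    simpa [hp] using this
  refine (plMan_open (n := 2) isOpen_univ).image (Y := {y | ℓ y = 0})
    { toFun := fun x => j x + p
      invFun := fun y => r (y - p)
      mapsTo := fun x _ => (hv _).trans ((LinearEquiv.ofFinrankEq _ _ hr) x).2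
      mapsTo_inv := fun _ _ => trivial
      left_inv := fun x _ => by simp [hrj']
      right_inv := fun y hy => ?_
      cont := (j.continuous_of_finiteDimensional.add continuous_const).continuousOn
      cont_inv := (r.continuous_of_finiteDimensional.comp
        (continuous_id.sub continuous_const)).continuousOn
      conical := (conicalOn_linear j A2.conicalSet_univ).add
        (conicalOn_const p A2.conicalSet_univ) }
  have h1 : y - p ∈ LinearMap.ker ℓ.linear := by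
    rw [LinearMap.mem_ker, ← hv, sub_add_cancel]
    exact hy
  obtain ⟨x, hx⟩ := (LinearEquiv.ofFinrankEq _ _ hr).surjective ⟨_, h1⟩
  have h2 : j x = y - p := congrArg Subtype.val hx
  simp only [← h2, hrj']
  rw [h2, sub_add_cancel]

end TR

theorem tr1_of (ps : PS) (col : COL) : TR1 := by
  classical
  intro Ω Λ U G P M f f' δ hΩ hΛ hf hB hU hUΛ hGU hGc hG hP hM hPM hun hcP hcM hδ
  obtain ⟨Y₀, κ₀, l₀, hY₀, -, hV, hl₀, hκ₀, hout, hsg⟩ :=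
    col hU hGU hGc hG hP hM hPM hun hcP hcM hδ
  set V := κ₀.toFun '' (G ×ˢ Ioo (-1) 1) with hVdef
  have hsub : G ×ˢ Ioo (-1:ℝ) 1 ⊆ G ×ˢ Icc (-1:ℝ) 1 := prod_mono Subset.rfl Ioo_subset_Icc_self
  have hVY : V ⊆ Y₀ := (κ₀.mapsTo.mono_left hsub).image_subset
  have hVU : V ⊆ U := hVY.trans hY₀
  have hlκ : ∀ q ∈ G ×ˢ Icc (-1:ℝ) 1, l₀ (κ₀.toFun q) = q.2 := fun q hq =>
    ((hκ₀ q.1 hq.1).2 q.2 hq.2).1
  have hmemV : ∀ y ∈ U, |l₀ y| < 1 → y ∈ V := fun y hy h => by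
    by_cases hY : y ∈ Y₀
    · obtain ⟨q, hq, rfl⟩ := κ₀.image_eq.symm ▸ hY
      rw [hlκ q hq] at h
      exact ⟨q, ⟨hq.1, abs_lt.1 h⟩, rfl⟩
    · rcases hout y ⟨hy, hY⟩ with h1 | h1 <;> simp [h1] at h
  have hle : ∀ y ∈ U, |l₀ y| ≤ 1 := fun y hy => by
    by_cases hY : y ∈ Y₀
    · obtain ⟨q, hq, rfl⟩ := κ₀.image_eq.symm ▸ hY
      rw [hlκ q hq]
      exact abs_le.2 hq.2
    · rcases hout y ⟨hy, hY⟩ with h1 | h1 <;> simp [h1]
  have hinv : ∀ y ∈ V, ((κ₀.invFun y).1, l₀ y) = κ₀.invFun y := by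
    rintro _ ⟨q, hq, rfl⟩
    rw [κ₀.left_inv (hsub hq), hlκ q (hsub hq)]
  obtain ⟨c, -, Y, κ, lam, h1, h2, h3, h4, h5, h6, h7, -⟩ := TR.tr0 ps (G := G) (V := V)
    (π := fun y => (κ₀.invFun y).1) (ψ := l₀) (σ := κ₀.toFun) (ι := Empty) Empty.elim Empty.elim
    (𝓛 := univ) hΩ hf hB hV (hVU.trans hUΛ) hG
    { mapsTo := by
        rintro _ ⟨q, hq, rfl⟩
        simp only [κ₀.left_inv (hsub hq), hlκ q (hsub hq)]
        exact hq
      mapsTo_inv := mapsTo_image _ _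
      left_inv := fun y hy => by
        simp only [hinv y hy]
        exact κ₀.right_inv (hVY hy)
      right_inv := fun q hq => by
        simp only [hinv _ ⟨q, hq, rfl⟩]
        exact κ₀.left_inv (hsub hq)
      cont := (κ₀.cont_inv.mono hVY).congr hinv
      cont_inv := κ₀.cont.mono hsub }
    ((aeaff hU hl₀).1.mono hVU) (fun e => e.elim) (fun x _ => ⟨univ, univ_mem, toFinite _⟩)
    (by rw [univ_inter, Real.volume_Ioo]; norm_num) hδ
    (fun u hu s hs => ((hκ₀ u hu).2 s (Ioo_subset_Icc_self hs)).2)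
  have hW : IsOpen (Ω ∩ f ⁻¹' V) := hf.cont.isOpen_inter_preimage hΩ hV
  have hW' : IsOpen (Ω ∩ f ⁻¹' U) := hf.cont.isOpen_inter_preimage hΩ hU
  have hWW : Ω ∩ f ⁻¹' V ⊆ Ω ∩ f ⁻¹' U := fun x hx => ⟨hx.1, hVU hx.2⟩
  have hlc : ContinuousOn (fun x => l₀ (f x)) (Ω ∩ f ⁻¹' U) :=
    hl₀.1.comp (hf.cont.mono inter_subset_left) fun x hx => hx.2
  have hone : ∀ x ∈ Ω ∩ f ⁻¹' U, f x ∉ V → l₀ (f x) = 1 ∨ l₀ (f x) = -1 := fun x hx h =>
    (abs_eq zero_le_one).1 (le_antisymm (hle _ hx.2) (not_lt.1 fun h' => h (hmemV _ hx.2 h')))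
  set lam' : E3 → ℝ := fun x => if f x ∈ V then lam x else l₀ (f x) with hlam'
  have he : ∀ x, f x ∈ V → lam' x = lam x := fun x hx => if_pos hx
  have he' : ∀ x, f x ∉ V → lam' x = l₀ (f x) := fun x hx => if_neg hx
  have hloc : ∀ x ∈ Ω ∩ f ⁻¹' U, f x ∉ V → ∀ᶠ y in 𝓝 x, lam' y = lam' x := by
    intro x hx hxV
    have hcx := hlc.continuousAt (hW'.mem_nhds hx)
    rcases hone x hx hxV with h | h
    · filter_upwards [hW'.mem_nhds hx, hcx.eventually (lt_mem_nhds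
        (show 3 / 4 < l₀ (f x) by rw [h]; norm_num))] with y hy hy'
      rw [he' x hxV, h]
      by_cases hyV : f y ∈ V
      · rw [he y hyV]
        exact (h7 y ⟨hy.1, hyV⟩).1 hy'.le
      · rw [he' y hyV]
        exact (hone y hy hyV).resolve_right fun h' => by rw [h'] at hy'; norm_num at hy'
    · filter_upwards [hW'.mem_nhds hx, hcx.eventually (gt_mem_nhds
        (show l₀ (f x) < -(3 / 4) by rw [h]; norm_num))] with y hy hy'
      rw [he' x hxV, h]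
      by_cases hyV : f y ∈ V
      · rw [he y hyV]
        exact (h7 y ⟨hy.1, hyV⟩).2 hy'.le
      · rw [he' y hyV]
        exact (hone y hy hyV).resolve_left fun h' => by rw [h'] at hy'; norm_num at hy'
  refine ⟨Y, κ, lam', h1.trans hWW, fun x hx hcl => h2 x ⟨hx.1, hmemV _ hx.2 ?_⟩ hcl,
    ⟨fun x hx => ?_, fun x hx => ?_⟩, fun u hu s hs => ⟨?_, (h4 u hu s hs).2⟩,
    fun y hy => ?_, fun x hx hd => ?_⟩
  · have hcx := (hlc.continuousAt (hW'.mem_nhds hx)).abs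
    refine lt_of_le_of_lt (b := 3 / 4) (not_lt.1 fun h => ?_) (by norm_num)
    obtain ⟨y, hy, hyY⟩ := mem_closure_iff_nhds.1 hcl _ (hcx.eventually (lt_mem_nhds h))
    exact absurd (h5 y hyY) (not_lt.2 (le_of_lt hy))
  · by_cases hxV : f x ∈ V
    · have hx' : x ∈ Ω ∩ f ⁻¹' V := ⟨hx.1, hxV⟩
      refine ((h3.1.continuousAt (hW.mem_nhds hx')).congr ?_).continuousWithinAt
      filter_upwards [hW.mem_nhds hx'] with y hy using (he y hy.2).symm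
    · exact (continuousAt_const.congr ((hloc x hx hxV).mono fun y hy => hy.symm)).continuousWithinAt
  · by_cases hxV : f x ∈ V
    · have hx' : x ∈ Ω ∩ f ⁻¹' V := ⟨hx.1, hxV⟩
      refine (h3.2 x hx').congr_nhds ?_ ?_ (he x hxV)
      · filter_upwards [hW.mem_nhds hx'] with y hy using ⟨fun _ => hy, fun _ => hWW hy⟩
      · filter_upwards [hW.mem_nhds hx'] with y hy _ using he y hy.2
    · exact (conicalOn_const (lam' x) (IsOpen.conicalSet hW') x hx).congr_nhds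
        (Eventually.of_forall fun _ => Iff.rfl) ((hloc x hx hxV).mono fun y hy _ => hy) rfl
  · rw [he _ (h1 (κ.mapsTo (show (u, s) ∈ G ×ˢ Icc (-1:ℝ) 1 from ⟨hu, hs⟩))).2]
    exact (h4 u hu s hs).1
  · by_cases hyV : f y ∈ V
    · rw [he y hyV]
      exact h6 y ⟨⟨hy.1.1, hyV⟩, hy.2⟩
    · rw [he' y hyV]
      exact hone y hy.1 hyV
  · have hxV : f x ∉ V := by
      rintro ⟨q, hq, hqx⟩
      exact absurd ((hκ₀ q.1 hq.1).2 q.2 (Ioo_subset_Icc_self hq.2)).2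
        (not_lt.2 (by rw [hqx]; exact hd q.1 hq.1))
    rw [he' x hxV]
    exact ⟨fun h => (hone x hx hxV).resolve_right fun h' => by
        have := (hsg _ hx.2).1.1 h
        linarith,
      fun h => (hone x hx hxV).resolve_left fun h' => by
        have := (hsg _ hx.2).2.1 h
        linarith⟩

theorem tr1d_of (tr1 : TR1) : TR1D := by
  intro Ω Λ U G P M X f f' δ hΩ hΛ hf hB hU hUΛ hGU hGc hG hP hM hPM hun hcP hcM hX hXG hδ
  obtain ⟨Y, κ, lam, h1, -, -, h4, -⟩ := tr1 (δ := fun _ => δ) hΩ hΛ hf hB hU hUΛ hGU hGc hG hP hM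
    hPM hun hcP hcM ⟨continuousOn_const, fun _ _ => hδ⟩
  obtain ⟨d, hd⟩ := TR.exists_slice κ hX hXG
  refine ⟨_, d, fun y hy => ?_, fun x hx => hd x ▸ (h4 x (hXG hx) 0 (by simp)).2⟩
  obtain ⟨x, hx, rfl⟩ := d.image_eq.symm ▸ hy
  rw [hd]
  exact (h1 (κ.mapsTo (show (x, (0:ℝ)) ∈ G ×ˢ Icc (-1:ℝ) 1 from ⟨hXG hx, by simp⟩))).1

theorem tr2_of (ps : PS) : TR2 := by
  intro Ω Λ f f' ι a b K S X δ hΩ hΛ hf hB hw hlf hK hgl hS hXc hX hXS hδ
  obtain ⟨ℓ, hℓ, hℓS, hU⟩ := hgl S hS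
  obtain ⟨U, hU, hXU, hvol⟩ := hU X hXc hXS
  obtain ⟨ν, hν⟩ := LinearMap.surjective_of_ne_zero hℓ 1
  obtain ⟨r, hr, hth⟩ := hXc.exists_thickening_subset_open (hU.inter hΛ) (subset_inter hXU
    fun x hx => hK ▸ K.cell_subset_carrier S (hXS hx).1)
  obtain ⟨p, hp⟩ := K.cell_nonempty S
  obtain ⟨η, hη, hην⟩ : ∃ η : ℝ, 0 < η ∧ η * ‖ν‖ < min (r / 2) δ := by
    have h : ∀ᶠ η in 𝓝[>] (0:ℝ), η * ‖ν‖ < min (r / 2) δ :=
      mem_nhdsWithin_of_mem_nhds (((continuous_id.mul continuous_const).tendsto' 0 0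
        (by simp)).eventually (gt_mem_nhds (lt_min (half_pos hr) hδ)))
    obtain ⟨η, h1, h2⟩ := (h.and self_mem_nhdsWithin).exists
    exact ⟨η, h2, h1⟩
  have hv : ∀ (u : E3) (t : ℝ), ℓ (u + t • ν) = ℓ u + t := fun u t => by
    have := ℓ.map_vadd u (t • ν)
    rw [vadd_eq_add, vadd_eq_add, add_comm, map_smul, hν, smul_eq_mul, mul_one, add_comm t] at this
    exact this
  have hℓc : Continuous ℓ := ℓ.continuous_of_finiteDimensional
  have hd : ∀ (u : E3), ∀ s ∈ Ioo (-1:ℝ) 1, dist (u + (η * s) • ν) u < min (r / 2) δ := by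
    intro u s hs
    rw [dist_eq_norm, add_sub_cancel_left, norm_smul, Real.norm_eq_abs, abs_mul, abs_of_pos hη]
    have h1 : |s| ≤ 1 := (abs_lt.2 hs).le
    exact lt_of_le_of_lt (mul_le_mul_of_nonneg_right (mul_le_of_le_one_right hη.le h1)
      (norm_nonneg _)) hην
  set G := {y | ℓ y = 0} ∩ thickening (r / 2) X with hG
  set V := {y : E3 | y + (-ℓ y) • ν ∈ thickening (r / 2) X ∧ η⁻¹ * ℓ y ∈ Ioo (-1:ℝ) 1} with hV
  have hback : ∀ y : E3, y + (-ℓ y) • ν + (η * (η⁻¹ * ℓ y)) • ν = y := fun y => by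
    rw [mul_inv_cancel_left₀ hη.ne', neg_smul, neg_add_cancel_right]
  have hVU : V ⊆ U ∩ Λ := fun y hy => hth (by
    obtain ⟨x, hx, h⟩ := mem_thickening_iff.1 hy.1
    have h1 := (hd (y + (-ℓ y) • ν) _ hy.2).trans_le (min_le_left _ _)
    rw [hback] at h1
    exact mem_thickening_iff.2 ⟨x, hx, by linarith [dist_triangle y (y + (-ℓ y) • ν) x]⟩)
  have hXG : X ⊆ G := fun x hx => ⟨hℓS x (hXS hx).1, self_subset_thickening (half_pos hr) _ hx⟩
  obtain ⟨c, hc, Y, κ, lam, h1, -, -, h4, -, -, -, h8⟩ := TR.tr0 ps (G := G) (V := V)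
    (π := fun y => y + (-ℓ y) • ν) (ψ := fun y => η⁻¹ * ℓ y) (σ := fun q => q.1 + (η * q.2) • ν)
    (𝓛 := {c | ∀ e, cnt f (a e) (b e) (U ∩ {y | ℓ y = η * c}) ≤ cnt f (a e) (b e) (K.cell S)})
    (δ := fun _ => δ) a b hΩ hf hB
    ((isOpen_thickening.preimage (by fun_prop)).inter (isOpen_Ioo.preimage (by fun_prop)))
    (fun y hy => (hVU hy).2) ((TR.plMan_plane ℓ hℓ (hℓS p hp)).inter_open isOpen_thickening)
    { mapsTo := fun y hy => ⟨⟨by simp only [mem_ofPred_eq, hv, add_neg_cancel], hy.1⟩, hy.2⟩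
      mapsTo_inv := fun q hq => by
        have h0 : ℓ q.1 = 0 := hq.1.1
        simp only [hV, mem_ofPred_eq, hv, h0, zero_add, neg_smul, add_neg_cancel_right,
          inv_mul_cancel_left₀ hη.ne']
        exact ⟨hq.1.2, hq.2⟩
      left_inv := fun y _ => hback y
      right_inv := fun q hq => by
        have h0 : ℓ q.1 = 0 := hq.1.1
        simp only [hv, h0, zero_add, neg_smul, add_neg_cancel_right, inv_mul_cancel_left₀ hη.ne']
      cont := by fun_prop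
      cont_inv := by fun_prop }
    ((aeaff isOpen_univ (A2.pl_mul η⁻¹ ⟨hℓc.continuousOn,
      conicalOn_of_affine ℓ A2.conicalSet_univ⟩)).1.mono (subset_univ _)) hw hlf (by
      have h1 := hvol (η / 2) (half_pos hη)
      intro h2
      apply h1
      have h3 := Real.volume_preimage_mul_left hη.ne' {c ∈ Ioo (-(η / 2)) (η / 2) | ∀ e,
        cnt f (a e) (b e) (U ∩ {y | ℓ y = c}) ≤ cnt f (a e) (b e) (K.cell S)}
      rw [measure_mono_null (fun c hc => ?_) h2] at h3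
      · refine (mul_eq_zero.1 h3.symm).resolve_left ?_
        rw [ENNReal.ofReal_eq_zero, not_le]
        exact abs_pos.2 (inv_ne_zero hη.ne')
      · exact ⟨hc.2, by nlinarith [hc.1.1], by nlinarith [hc.1.2]⟩)
    ⟨continuousOn_const, fun _ _ => hδ⟩ fun u _ s hs => (hd u s hs).trans_le (min_le_right _ _)
  obtain ⟨d, hd⟩ := TR.exists_slice κ hX hXG
  have hY : ∀ x ∈ X, κ.toFun (x, 0) ∈ Ω ∩ f ⁻¹' V := fun x hx =>
    h1 (κ.mapsTo (show (x, (0:ℝ)) ∈ G ×ˢ Icc (-1:ℝ) 1 from ⟨hXG hx, by simp⟩))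
  refine ⟨_, d, fun y hy => ?_, fun x hx => hd x ▸ (h4 x (hXG hx) 0 (by simp)).2,
    fun e => le_trans ?_ (hc.1 e)⟩
  · obtain ⟨x, hx, rfl⟩ := d.image_eq.symm ▸ hy
    exact hd x ▸ (hY x hx).1
  · unfold cnt
    rw [ENat.toENNReal_le]
    refine encard_le_encard ?_
    rintro y ⟨hy, hyD⟩
    obtain ⟨x, hx, rfl⟩ := d.image_eq.symm ▸ hyD
    rw [hd] at hy ⊢
    refine ⟨hy, (hVU (hY x hx).2).1, ?_⟩
    have h9 := h8 e x (hXG hx) hy
    rw [mem_ofPred_eq, ← h9, mul_inv_cancel_left₀ hη.ne']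

end P073
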