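import Vale.Agent.P073Z.T0.ModelStmt
import Vale.Agent.P073Z.DISC2
import Vale.Agent.P073Z.A12
import Vale.Agent.P073Z.CosFin

/-!
# A sphere minus disjoint discs is connected
-/

open Set Metric Topology Filter

namespace P073.T0

theorem sphere_conn {E : Type} [NormedAddCommGroup E] [NormedSpace ℝ E] {S : Set E}
    (h : ConSphere 2 S) : IsConnected S := by
  obtain ⟨φ⟩ := h
  rw [← φ.symm.image_eq]
  refine IsConnected.image (isConnected_sphere ?_ _ zero_le_one) _ φ.cont_inv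
  rw [rank_fin_fun]
  exact_mod_cast (by norm_num : 1 < 2 + 1)

theorem smd_of (hC : COS) : SMD := by
  intro E _ _ ι s S Δ J hS hΔ hd
  classical
  rcases s.eq_empty_or_nonempty with rfl | ⟨k, hk⟩
  · simpa using ⟨(sphere_conn hS).2, (sphere_conn hS).1⟩
  have hJ : IsCircle (J k) := mod_thm.2.2.1.2 (hΔ k hk).1.conSphere
  have hJk : J k ⊆ Δ k := (hΔ k hk).1.1
  obtain ⟨D, hD, hU, hI⟩ : ∃ D, ConBall 2 D (J k) ∧ Δ k ∪ D = S ∧ Δ k ∩ D = J k := by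
    obtain ⟨D₁, D₂, h1, h2, h3, h4, h5⟩ := hC.1 hS hJ (hJk.trans (hΔ k hk).2)
    rcases h5 _ (hΔ k hk).2 (hΔ k hk).1 with h | h
    · exact ⟨D₂, h2, h ▸ h3, h ▸ h4⟩
    · exact ⟨D₁, h1, h ▸ (union_comm _ _).trans h3, h ▸ (inter_comm _ _).trans h4⟩
  have hdis : ∀ i ∈ s.erase k, Disjoint (Δ i) (Δ k) := fun i hi =>
    hd i (Finset.mem_of_mem_erase hi) k hk (Finset.ne_of_mem_erase hi)
  have hcl : IsClosed (⋃ i ∈ s.erase k, Δ i) :=
    isClosed_biUnion_finset fun i hi => (hΔ i (Finset.mem_of_mem_erase hi)).1.isClosed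
  have h1 : IsPreconnected (D \ ⋃ i ∈ s.erase k, Δ i) := by
    refine (repl (s.erase k) Δ J J hD (fun i hi => ?_) fun i hi j hj =>
      hd i (Finset.mem_of_mem_erase hi) j (Finset.mem_of_mem_erase hj)).1
    have h2 := hΔ i (Finset.mem_of_mem_erase hi)
    refine ⟨h2.1, fun x hx => ?_, Or.inl ⟨rfl, (hdis i hi).mono h2.1.1 hJk⟩⟩
    have h3 := h2.2 hx
    rw [← hU] at h3
    exact h3.resolve_left (disjoint_left.1 (hdis i hi) hx)
  have h2 := hD.preconn_int hcl.isOpen_compl h1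
  have h3 : S \ ⋃ i ∈ s, Δ i = (D \ J k) ∩ (⋃ i ∈ s.erase k, Δ i)ᶜ := by
    rw [← hU, ← hI]
    ext x
    simp only [Set.mem_sdiff, mem_union, mem_iUnion, mem_inter_iff, mem_compl_iff, Finset.mem_erase,
      not_exists]
    refine ⟨fun h => ⟨⟨h.1.resolve_left (h.2 k hk), fun h4 => h.2 k hk h4.1⟩,
      fun i hi => h.2 i hi.2⟩, fun h => ⟨Or.inr h.1.1, fun i hi hx => ?_⟩⟩
    by_cases hik : i = k
    · exact h.1.2 ⟨hik ▸ hx, h.1.1⟩
    · exact h.2 i ⟨hik, hi⟩ hx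
  rw [h3]
  refine ⟨h2.1, ?_⟩
  obtain ⟨x, hx⟩ := (arcs.2.2.2.2.2.1 (p := (0 : E)) hJ).1.1
  refine closure_nonempty_iff.1 ⟨x, h2.2 ⟨hD.1 hx, fun h4 => ?_⟩⟩
  obtain ⟨i, hi, h5⟩ := mem_iUnion₂.1 h4
  exact disjoint_left.1 (hdis i hi) h5 (hJk hx)

theorem smd : SMD := smd_of cos_thm

end P073.T0
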