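import Vale.Agent.P073Z.T0.ModelStmt
import Vale.Agent.P073Z.Gauge
import Vale.Agent.P073Z.RCX

/-!
# Block T0, assembly, first part: the surface and the discs in the source
-/

open Set Metric Topology Filter

namespace P073.T0.As

/-- surgery of a pseudo-disc in a collar, in three-space -/
def LH3 : Prop := ∀ {S' B' S₀ C A F : Set E3} (χ : ConHomeo (C ×ˢ Icc (-1:ℝ) 1) A),
  ConBall 2 S' B' → ConBall 2 S₀ C → S₀ ⊆ S' \ B' → (∀ x ∈ C, χ.toFun (x, 0) = x) → A ⊆ F →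
  ∃ δ > (0:ℝ), ∀ {Y D₀ : Set E3} (κ : ConHomeo (F ×ˢ Icc (-1:ℝ) 1) Y) (d : ConHomeo S' D₀)
    {lam : E3 → ℝ} {sg : ℝ}, (sg = 1 ∨ sg = -1) → PLOn lam D₀ →
    (∀ u ∈ F, ∀ s ∈ Icc (-1:ℝ) 1, lam (κ.toFun (u, s)) = s) →
    (∀ x ∈ S', |lam (d.toFun x)| < 1 →
      ∃ u ∈ A, d.toFun x = κ.toFun (u, lam (d.toFun x)) ∧ dist x u < δ) →
    (∀ x ∈ S₀, δ ≤ infDist x C → sg * lam (d.toFun x) = 1) →
    (∀ x ∈ S' \ S₀, δ ≤ infDist x C → sg * lam (d.toFun x) = -1) →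
    ∃ D₁, ConBall 2 D₁ (κ.toFun '' (C ×ˢ {0})) ∧
      (∀ y ∈ D₁, (y ∈ D₀ ∧ 1 / 3 ≤ sg * lam y) ∨
        ∃ u ∈ A, ∃ s ∈ Icc (0:ℝ) (2 / 3), y = κ.toFun (u, sg * s)) ∧
      ∀ y ∈ D₁, lam y = 0 → y ∈ κ.toFun '' (C ×ˢ {0})

/-- a collar in the source which follows the surface `G` of the target -/
structure Fol (Ω : Set E3) (f : E3 → E3) (G P M : Set E3) (ε : E3 → ℝ) (Y : Set E3)
    (κ : ConHomeo (G ×ˢ Icc (-1:ℝ) 1) Y) (lam : E3 → ℝ) : Prop where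
  sub : Y ⊆ Ω
  pl : PLOn lam Ω
  lev : ∀ u ∈ G, ∀ s ∈ Icc (-1:ℝ) 1, lam (κ.toFun (u, s)) = s ∧ dist (f (κ.toFun (u, s))) u < ε u
  off : ∀ y ∈ Ω \ Y, lam y = 1 ∨ lam y = -1
  far : ∀ x ∈ Ω, (∀ u ∈ G, ε u ≤ dist (f x) u) → (f x ∈ P → lam x = 1) ∧ (f x ∈ M → lam x = -1)

variable {K : RCx E3} {F : Set E3}

/-- the surface and the discs in the source -/
structure Src (m : Model K F) (Ω : Set E3) (f : E3 → E3) (Q : K.ι → Set E3 → Prop) where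
  /-- the surface -/
  Y₀ : Set E3
  /-- its parametrisation -/
  e₀ : ConHomeo m.G Y₀
  /-- the side function -/
  lam : E3 → ℝ
  /-- the discs -/
  D₁ : K.ι → Set E3
  cont : ContinuousOn lam Ω
  zero : ∀ y, y ∈ Y₀ ↔ y ∈ Ω ∧ lam y = 0
  star : ∀ i, Tile K i → ∀ u ∈ m.G, u ∈ m.T i → f (e₀.toFun u) ∈ K.star i
  wire : ∀ y ∈ Ω, f y ∈ F → lam y = 1
  ball : ∀ k, Mid K k → ConBall 2 (D₁ k) (e₀.toFun '' m.J k)
  sub : ∀ k, Mid K k → D₁ k ⊆ Ω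
  maps : ∀ k, Mid K k → MapsTo f (D₁ k) (m.W k)
  pos : ∀ k, K.dim k = 2 → ∀ y ∈ D₁ k, 0 ≤ lam y
  neg : ∀ k, K.dim k = 1 → ∀ y ∈ D₁ k, lam y ≤ 0
  bd : ∀ k, Mid K k → ∀ y ∈ D₁ k, lam y = 0 → y ∈ e₀.toFun '' m.J k
  count : ∀ k, Mid K k → ∃ D₀, Q k D₀ ∧ ∀ y ∈ D₁ k, lam y = 1 → y ∈ D₀

theorem star_subset (K : RCx E3) (i : K.ι) : K.star i ⊆ K.carrier :=
  iUnion₂_subset fun j _ => K.cell_subset_carrier j

/-- the zero section of a collar -/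
theorem exists_sec {G Y : Set E3} (κ : ConHomeo (G ×ˢ Icc (-1:ℝ) 1) Y) :
    ∃ e : ConHomeo G (κ.toFun '' (G ×ˢ {0})), ∀ u, e.toFun u = κ.toFun (u, 0) := by
  have h0 : (0:ℝ) ∈ Icc (-1:ℝ) 1 := ⟨by norm_num, by norm_num⟩
  have hm : ∀ u ∈ G, (u, (0:ℝ)) ∈ G ×ˢ Icc (-1:ℝ) 1 := fun u hu => ⟨hu, h0⟩
  have hsub : κ.toFun '' (G ×ˢ {0}) ⊆ Y := by
    rintro _ ⟨⟨u, s⟩, ⟨hu, hs⟩, rfl⟩
    obtain rfl : s = 0 := hs
    exact κ.mapsTo (hm u hu)
  refine ⟨{ toFun := fun u => κ.toFun (u, 0)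
            invFun := fun y => (κ.invFun y).1
            mapsTo := fun u hu => ⟨(u, 0), ⟨hu, rfl⟩, rfl⟩
            mapsTo_inv := fun y hy => (κ.mapsTo_inv (hsub hy)).1
            left_inv := fun u hu => by
              show (κ.invFun (κ.toFun (u, 0))).1 = u
              rw [κ.left_inv (hm u hu)]
            right_inv := ?_
            cont := κ.cont.comp (by fun_prop) hm
            cont_inv := continuous_fst.comp_continuousOn (κ.cont_inv.mono hsub)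
            conical := ?_ }, fun u => rfl⟩
  · rintro _ ⟨⟨u, s⟩, ⟨hu, hs⟩, rfl⟩
    obtain rfl : s = 0 := hs
    show κ.toFun ((κ.invFun (κ.toFun (u, 0))).1, 0) = _
    rw [κ.left_inv (hm u hu)]
  · intro u hu
    obtain ⟨r, hr, H⟩ := κ.conical (u, 0) (hm u hu)
    refine ⟨r, hr, fun v hv huv t ht => ?_⟩
    have h1 := H (v, 0) (by rw [Prod.norm_def, norm_zero]; exact max_le hv hr.le)
      (by simpa using huv) t ht
    simp only [Prod.smul_mk, smul_zero, Prod.mk_add_mk, add_zero] at h1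
    exact ⟨h1.1.1, h1.2⟩

theorem J_G (m : Model K F) {k : K.ι} (hk : Mid K k) : m.J k ⊆ m.G :=
  m.X_inter k hk ▸ inter_subset_right

theorem D_X (m : Model K F) {k : K.ι} (hk : Mid K k) : m.D k ⊆ m.X k :=
  (m.D_sub k hk).trans sdiff_subset

theorem W_sub (m : Model K F) (k : K.ι) : m.W k ⊆ K.carrier :=
  (m.W_star k).trans (star_subset K k)

theorem D_inter_G (m : Model K F) {k : K.ι} (hk : Mid K k) : m.D k ∩ m.G = m.J k :=
  Subset.antisymm (m.X_inter k hk ▸ inter_subset_inter_left _ (D_X m hk))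
    (subset_inter (m.disc k hk).1 (J_G m hk))

theorem not_G (m : Model K F) {x : E3} (hx : x ∈ m.P ∪ m.M) : x ∉ m.G :=
  (m.two.union ▸ hx : x ∈ K.carrier \ m.G).2

/-- a radius for one disc -/
theorem exists_radius (m : Model K F) {k : K.ι} (hk : Mid K k) {δ : ℝ} (hδ : 0 < δ) :
    ∃ r > (0:ℝ), 2 * r ≤ δ ∧ (∀ x ∈ m.X k, ∀ u ∈ m.G, dist x u < 2 * r → u ∈ m.A k) ∧
      (∀ x ∈ m.X k ∪ m.A k, ball x r ⊆ m.W k) ∧
      ∀ x ∈ m.X k, δ ≤ infDist x (m.J k) → ball x (2 * r) ⊆ m.P ∪ m.M := by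
  have hX := (m.big k hk).isCompact
  have hXc : m.X k ⊆ K.carrier := (m.X_sub k hk).trans (W_sub m k)
  obtain ⟨χ, -⟩ := m.ann k hk
  have hA : IsCompact (m.A k) :=
    χ.isCompact_right ((m.disc k hk).isCompact_bdry.prod isCompact_Icc)
  obtain ⟨r₁, h₁, H₁⟩ := hX.exists_thickening_subset_open
    (isClosed_closure (s := m.G \ m.A k)).isOpen_compl (fun x hx hc => by
      have hG : x ∈ m.G := m.two.closedIn x (hXc hx) (closure_mono sdiff_subset hc)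
      have hJ : x ∈ m.J k := m.X_inter k hk ▸ ⟨hx, hG⟩
      obtain ⟨U, hU, hs⟩ := mem_nhdsWithin_iff_exists_mem_nhds_inter.1 (m.A_nhds k hk x hJ)
      obtain ⟨y, hyU, hy⟩ := mem_closure_iff_nhds.1 hc U hU
      exact hy.2 (hs ⟨hyU, hy.1⟩))
  obtain ⟨r₂, h₂, H₂⟩ := (hX.union hA).exists_thickening_subset_open (m.W_open k)
    (union_subset (m.X_sub k hk) ((m.A_sub k hk).trans inter_subset_left))
  have hC : IsCompact (m.X k ∩ {x | δ ≤ infDist x (m.J k)}) :=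
    hX.inter_right (isClosed_le continuous_const (continuous_infDist_pt _))
  obtain ⟨r₃, h₃, H₃⟩ := hC.exists_thickening_subset_open (m.two.P_open.union m.two.M_open)
    (fun x hx => by
      rw [m.two.union]
      refine ⟨hXc hx.1, fun hG => ?_⟩
      have hJ : x ∈ m.J k := m.X_inter k hk ▸ ⟨hx.1, hG⟩
      have h := hx.2
      rw [mem_ofPred_eq, infDist_zero_of_mem hJ] at h
      exact absurd h (not_le.2 hδ))
  have a1 := min_le_left (min δ r₁) (min r₂ r₃)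
  have a2 := min_le_right (min δ r₁) (min r₂ r₃)
  have a3 := min_le_left δ r₁
  have a4 := min_le_right δ r₁
  have a5 := min_le_left r₂ r₃
  have a6 := min_le_right r₂ r₃
  have a0 : 0 < min (min δ r₁) (min r₂ r₃) := lt_min (lt_min hδ h₁) (lt_min h₂ h₃)
  refine ⟨min (min δ r₁) (min r₂ r₃) / 2, half_pos a0, by linarith, fun x hx u hu hd => ?_,
    fun x hx y hy => H₂ ?_, fun x hx hd y hy => H₃ ?_⟩
  · by_contra hA
    refine H₁ (a := u) (mem_thickening_iff.2 ⟨x, hx, ?_⟩) (subset_closure ⟨hu, hA⟩)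
    rw [dist_comm]
    linarith
  · exact mem_thickening_iff.2 ⟨x, hx, by linarith [mem_ball.1 hy]⟩
  · exact mem_thickening_iff.2 ⟨x, ⟨hx, hd⟩, by linarith [mem_ball.1 hy]⟩

/-- the gauge on the surface -/
theorem exists_eps (m : Model K F) (hF : ClosedIn F K.carrier)
    (hN : ∀ i, Tile K i → ∀ x ∈ m.T i, K.star i ∈ 𝓝 x) {r : K.ι → ℝ} (hr : ∀ k, 0 < r k) :
    ∃ ε, Gauge ε m.G ∧ ∀ u ∈ m.G, (∀ k, (ball u (ε u) ∩ m.W k).Nonempty → ε u ≤ r k) ∧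
      (∀ i, Tile K i → u ∈ m.T i → ball u (ε u) ⊆ K.star i) ∧ Disjoint (ball u (ε u)) F := by
  obtain ⟨ε, hε, -, -, H⟩ := exists_gauge (X := m.G)
    (p := fun u a => (∀ k, (ball u a ∩ m.W k).Nonempty → a ≤ r k) ∧
      (∀ i, Tile K i → u ∈ m.T i → ball u a ⊆ K.star i) ∧ Disjoint (ball u a) F)
    (fun u _ a b _ hab h => ⟨fun k hk => hab.trans
        (h.1 k (hk.mono (inter_subset_inter_left _ (ball_subset_ball hab)))),
      fun i hi hu => (ball_subset_ball hab).trans (h.2.1 i hi hu),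
      h.2.2.mono_left (ball_subset_ball hab)⟩) fun u hu => by
      have huc := m.two.sub hu
      obtain ⟨U, hU, hfin⟩ := m.W_lf u huc
      obtain ⟨g, hg, hle⟩ := exists_gauge_le_finset (X := m.G) hfin.toFinset
        (g := fun i _ => r i) fun i _ => gauge_const (hr i)
      have hT : LFIn (fun i : {i // Tile K i} => m.T i) K.carrier :=
        m.T_lf.comp_injective Subtype.val_injective
      have h1 := hT.eventually (fun i => (m.ball i.1 i.2).isClosed) huc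
      have h2 : (⋂ i ∈ {i : {i // Tile K i} | u ∈ m.T i}, K.star i) ∈ 𝓝 u :=
        (biInter_mem (hT.finite_mem huc)).2 fun i hi => hN i.1 i.2 u hi
      have h3 : Fᶜ ∈ 𝓝 u := hF.compl_mem_nhds huc fun h => not_G m (Or.inl (m.F_sub h)) hu
      obtain ⟨s, hs, hb⟩ := Metric.mem_nhds_iff.1 (inter_mem hU (inter_mem h2 h3))
      refine ⟨min (s / 2) (g u), lt_min (half_pos hs) (hg.2 u hu), ?_⟩
      filter_upwards [mem_nhdsWithin_of_mem_nhds (ball_mem_nhds u (half_pos hs)),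
        mem_nhdsWithin_of_mem_nhds h1] with y hy hy1
      have h4 : ball y (min (s / 2) (g u)) ⊆ ball u s := fun z hz => by
        have h5 := dist_triangle z y u
        have h6 := (mem_ball.1 hz).trans_le (min_le_left _ _)
        rw [mem_ball] at hy ⊢
        linarith
      refine ⟨fun k ⟨z, hz, hzW⟩ => (min_le_right _ _).trans
        (hle k (hfin.mem_toFinset.2 ⟨z, hzW, (hb (h4 hz)).1⟩) u), fun i hi hyi z hz => ?_,
        disjoint_left.2 fun z hz => (hb (h4 hz)).2.2⟩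
      exact mem_iInter₂.1 (hb (h4 hz)).2.1 ⟨i, hi⟩ (hy1 ⟨i, hi⟩ hyi)
  exact ⟨ε, hε, H⟩

/-- one disc of the source -/
theorem one_disc (m : Model K F) {Ω Y D₀ : Set E3} {f : E3 → E3} {ε lam : E3 → ℝ}
    {κ : ConHomeo (m.G ×ˢ Icc (-1:ℝ) 1) Y} (hc : Fol Ω f m.G m.P m.M ε Y κ lam) (hε : Gauge ε m.G)
    {k : K.ι} {δ r sg : ℝ} (hrδ : 2 * r ≤ δ) (hδ : 0 < δ)
    (hA : ∀ x ∈ m.X k, ∀ u ∈ m.G, dist x u < 2 * r → u ∈ m.A k)
    (hW : ∀ x ∈ m.X k ∪ m.A k, ball x r ⊆ m.W k)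
    (hPM : ∀ x ∈ m.X k, δ ≤ infDist x (m.J k) → ball x (2 * r) ⊆ m.P ∪ m.M)
    (hεr : ∀ u ∈ m.G, (ball u (ε u) ∩ m.W k).Nonempty → ε u ≤ r) (hk : Mid K k)
    (d : ConHomeo (m.X k) D₀) (hD : D₀ ⊆ Ω) (hd : ∀ x ∈ m.X k, dist (f (d.toFun x)) x < r)
    (hsg : (sg = 1 ∧ m.D k \ m.J k ⊆ m.P ∧ m.X k \ m.D k ⊆ m.M) ∨
      (sg = -1 ∧ m.D k \ m.J k ⊆ m.M ∧ m.X k \ m.D k ⊆ m.P))
    (H : ∀ {Y D₀ : Set E3} (κ : ConHomeo (m.G ×ˢ Icc (-1:ℝ) 1) Y) (d : ConHomeo (m.X k) D₀)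
      {lam : E3 → ℝ} {sg : ℝ}, (sg = 1 ∨ sg = -1) → PLOn lam D₀ →
      (∀ u ∈ m.G, ∀ s ∈ Icc (-1:ℝ) 1, lam (κ.toFun (u, s)) = s) →
      (∀ x ∈ m.X k, |lam (d.toFun x)| < 1 →
        ∃ u ∈ m.A k, d.toFun x = κ.toFun (u, lam (d.toFun x)) ∧ dist x u < δ) →
      (∀ x ∈ m.D k, δ ≤ infDist x (m.J k) → sg * lam (d.toFun x) = 1) →
      (∀ x ∈ m.X k \ m.D k, δ ≤ infDist x (m.J k) → sg * lam (d.toFun x) = -1) →
      ∃ D₁, ConBall 2 D₁ (κ.toFun '' (m.J k ×ˢ {0})) ∧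
        (∀ y ∈ D₁, (y ∈ D₀ ∧ 1 / 3 ≤ sg * lam y) ∨
          ∃ u ∈ m.A k, ∃ s ∈ Icc (0:ℝ) (2 / 3), y = κ.toFun (u, sg * s)) ∧
        ∀ y ∈ D₁, lam y = 0 → y ∈ κ.toFun '' (m.J k ×ˢ {0})) :
    ∃ D₁, ConBall 2 D₁ (κ.toFun '' (m.J k ×ˢ {0})) ∧ D₁ ⊆ Ω ∧ MapsTo f D₁ (m.W k) ∧
      (∀ y ∈ D₁, 0 ≤ sg * lam y) ∧ (∀ y ∈ D₁, lam y = 0 → y ∈ κ.toFun '' (m.J k ×ˢ {0})) ∧
      ∀ y ∈ D₁, lam y = 1 → y ∈ D₀ := by
  have hsg' : sg = 1 ∨ sg = -1 := hsg.imp And.left And.left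
  have hdW : ∀ x ∈ m.X k, f (d.toFun x) ∈ m.W k := fun x hx => hW x (Or.inl hx) (hd x hx)
  have near : ∀ x ∈ m.X k, ∀ u ∈ m.G, dist (f (d.toFun x)) u < ε u → dist x u < 2 * r := by
    intro x hx u hu h
    have h1 := hεr u hu ⟨_, h, hdW x hx⟩
    have h2 := dist_triangle_left x u (f (d.toFun x))
    linarith [hd x hx]
  have side : ∀ x ∈ m.X k, δ ≤ infDist x (m.J k) →
      (x ∈ m.P → lam (d.toFun x) = 1) ∧ (x ∈ m.M → lam (d.toFun x) = -1) := by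
    intro x hx hi
    have hb := hPM x hx hi
    have hr : 0 < r := dist_nonneg.trans_lt (hd x hx)
    have h1 := hc.far _ (hD (d.mapsTo hx)) fun u hu => not_lt.1 fun h =>
      not_G m (hb (mem_ball'.2 (near x hx u hu h))) hu
    have h2 : f (d.toFun x) ∈ ball x (2 * r) := by
      rw [mem_ball]
      linarith [hd x hx]
    have h3 : x ∈ ball x (2 * r) := mem_ball_self (by linarith)
    have hp := (convex_ball x (2 * r)).isPreconnected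
    exact ⟨fun h => h1.1 (hp.subset_left_of_subset_union m.two.P_open m.two.M_open m.two.disj hb
        ⟨x, h3, h⟩ h2),
      fun h => h1.2 (hp.subset_right_of_subset_union m.two.P_open m.two.M_open m.two.disj hb
        ⟨x, h3, h⟩ h2)⟩
  have notJ : ∀ x, δ ≤ infDist x (m.J k) → x ∉ m.J k := fun x hi hJ => by
    rw [infDist_zero_of_mem hJ] at hi
    exact absurd hi (not_le.2 hδ)
  obtain ⟨D₁, h1, h2, h3⟩ := H κ d hsg'
    ⟨hc.pl.1.mono hD, hc.pl.2.mono d.conicalSet_right hD⟩ (fun u hu s hs => (hc.lev u hu s hs).1)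
    (fun x hx hl => by
      have hY : d.toFun x ∈ Y := by
        by_contra hY
        rcases hc.off _ ⟨hD (d.mapsTo hx), hY⟩ with h | h <;> rw [h] at hl <;> simp at hl
      obtain ⟨⟨u, s⟩, ⟨hu, hs⟩, he⟩ : d.toFun x ∈ κ.toFun '' (m.G ×ˢ Icc (-1:ℝ) 1) :=
        κ.image_eq.symm ▸ hY
      have h4 := hc.lev u hu s hs
      rw [he] at h4
      have h5 := near x hx u hu h4.2
      exact ⟨u, hA x hx u hu h5, by rw [h4.1, he], h5.trans_le hrδ⟩)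
    (fun x hx hi => by
      have h4 := side x (D_X m hk hx) hi
      rcases hsg with ⟨rfl, h5, -⟩ | ⟨rfl, h5, -⟩
      · rw [h4.1 (h5 ⟨hx, notJ x hi⟩)]; norm_num
      · rw [h4.2 (h5 ⟨hx, notJ x hi⟩)]; norm_num)
    (fun x hx hi => by
      have h4 := side x hx.1 hi
      rcases hsg with ⟨rfl, -, h5⟩ | ⟨rfl, -, h5⟩
      · rw [h4.2 (h5 hx)]; norm_num
      · rw [h4.1 (h5 hx)]; norm_num)
  have key : ∀ u ∈ m.A k, ∀ s ∈ Icc (0:ℝ) (2 / 3), κ.toFun (u, sg * s) ∈ Ω ∧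
      f (κ.toFun (u, sg * s)) ∈ m.W k ∧ lam (κ.toFun (u, sg * s)) = sg * s := by
    intro u hu s hs
    have hu' := m.A_sub k hk hu
    have hs' : sg * s ∈ Icc (-1:ℝ) 1 := by
      rcases hsg' with rfl | rfl <;> constructor <;> linarith [hs.1, hs.2]
    have h4 := hc.lev u hu'.2 _ hs'
    refine ⟨hc.sub (κ.mapsTo ⟨hu'.2, hs'⟩), hW u (Or.inr hu) (h4.2.trans_le ?_), h4.1⟩
    exact hεr u hu'.2 ⟨u, mem_ball_self (hε.2 u hu'.2), hu'.1⟩
  refine ⟨D₁, h1, fun y hy => ?_, fun y hy => ?_, fun y hy => ?_, h3, fun y hy hl => ?_⟩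
  · rcases h2 y hy with h | ⟨u, hu, s, hs, rfl⟩
    · exact hD h.1
    · exact (key u hu s hs).1
  · rcases h2 y hy with h | ⟨u, hu, s, hs, rfl⟩
    · rw [← d.right_inv h.1]
      exact hdW _ (d.mapsTo_inv h.1)
    · exact (key u hu s hs).2.1
  · rcases h2 y hy with h | ⟨u, hu, s, hs, rfl⟩
    · linarith [h.2]
    · rw [(key u hu s hs).2.2]
      rcases hsg' with rfl | rfl <;> linarith [hs.1]
  · rcases h2 y hy with h | ⟨u, hu, s, hs, rfl⟩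
    · exact h.1
    · rw [(key u hu s hs).2.2] at hl
      rcases hsg' with rfl | rfl <;> linarith [hs.1, hs.2]

/-- the surface and the discs in the source exist -/
theorem exists_src (hL : LH3) (m : Model K F) (hF : ClosedIn F K.carrier)
    (hN : ∀ i, Tile K i → ∀ x ∈ m.T i, K.star i ∈ 𝓝 x) {Ω : Set E3} {f : E3 → E3}
    {Q : K.ι → Set E3 → Prop}
    (h1 : ∀ ε, Gauge ε m.G → ∃ (Y : Set E3) (κ : ConHomeo (m.G ×ˢ Icc (-1:ℝ) 1) Y)
      (lam : E3 → ℝ), Fol Ω f m.G m.P m.M ε Y κ lam)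
    (h2 : ∀ k, Mid K k → ∀ δ > (0:ℝ), ∃ (D₀ : Set E3) (d : ConHomeo (m.X k) D₀), D₀ ⊆ Ω ∧
      (∀ x ∈ m.X k, dist (f (d.toFun x)) x < δ) ∧ Q k D₀) : Nonempty (Src m Ω f Q) := by
  classical
  have a1 := fun (k : K.ι) (hk : Mid K k) => hL (m.ann k hk).choose (m.big k hk) (m.disc k hk)
    (m.D_sub k hk) (m.ann k hk).choose_spec ((m.A_sub k hk).trans inter_subset_right)
  choose δ hδ H using a1
  choose r hr hrδ hA hW hPM using fun (k : K.ι) (hk : Mid K k) => exists_radius m hk (hδ k hk)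
  obtain ⟨ε, hε, Hε⟩ := exists_eps m hF hN (r := fun k => if hk : Mid K k then r k hk else 1)
    fun k => by
      split_ifs with hk
      · exact hr k hk
      · exact one_pos
  obtain ⟨Y, κ, lam, hc⟩ := h1 ε hε
  obtain ⟨e, he⟩ := exists_sec κ
  have heJ : ∀ J : Set E3, κ.toFun '' (J ×ˢ {0}) = e.toFun '' J := fun J => by
    ext y
    constructor
    · rintro ⟨⟨u, s⟩, ⟨hu, hs⟩, rfl⟩
      obtain rfl : s = 0 := hs
      exact ⟨u, hu, he u⟩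
    · rintro ⟨u, hu, rfl⟩
      exact ⟨(u, 0), ⟨hu, rfl⟩, (he u).symm⟩
  have a2 : ∀ k, ∃ D₁, Mid K k → ConBall 2 D₁ (e.toFun '' m.J k) ∧ D₁ ⊆ Ω ∧
      MapsTo f D₁ (m.W k) ∧ (∀ y ∈ D₁, 0 ≤ (if K.dim k = 2 then (1:ℝ) else -1) * lam y) ∧
      (∀ y ∈ D₁, lam y = 0 → y ∈ e.toFun '' m.J k) ∧
      ∃ D₀, Q k D₀ ∧ ∀ y ∈ D₁, lam y = 1 → y ∈ D₀ := by
    intro k
    by_cases hk : Mid K k
    · obtain ⟨D₀, d, hD, hd, hQ⟩ := h2 k hk _ (hr k hk)
      obtain ⟨D₁, b1, b2, b3, b4, b5, b6⟩ := one_disc m hc hε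
        (sg := if K.dim k = 2 then (1:ℝ) else -1) (hrδ k hk) (hδ k hk) (hA k hk) (hW k hk)
        (hPM k hk) (fun u hu h => by simpa only [dif_pos hk] using (Hε u hu).1 k h) hk d hD hd
        (by
          split_ifs with h
          · exact Or.inl ⟨rfl, (m.face k h).2.1, (m.face k h).2.2.1⟩
          · exact Or.inr ⟨rfl, (m.edge k (hk.resolve_right h)).1,
              (m.edge k (hk.resolve_right h)).2.1⟩) (H k hk)
      rw [heJ] at b1 b5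
      exact ⟨D₁, fun _ => ⟨b1, b2, b3, b4, b5, D₀, hQ, b6⟩⟩
    · exact ⟨∅, fun h => absurd h hk⟩
  choose D₁ hD₁ using a2
  have h0 : (0:ℝ) ∈ Icc (-1:ℝ) 1 := ⟨by norm_num, by norm_num⟩
  refine ⟨{ Y₀ := _
            e₀ := e
            lam := lam
            D₁ := D₁
            cont := hc.pl.1
            zero := fun y => ⟨?_, fun hy => ?_⟩
            star := fun i hi u hu hT => ?_
            wire := fun y hy hf => (hc.far y hy fun u hu => not_lt.1 fun h =>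
              disjoint_left.1 (Hε u hu).2.2 h hf).1 (m.F_sub hf)
            ball := fun k hk => (hD₁ k hk).1
            sub := fun k hk => (hD₁ k hk).2.1
            maps := fun k hk => (hD₁ k hk).2.2.1
            pos := fun k hk y hy => by
              simpa only [if_pos hk, one_mul] using (hD₁ k (Or.inr hk)).2.2.2.1 y hy
            neg := fun k hk y hy => by
              have h := (hD₁ k (Or.inl hk)).2.2.2.1 y hy
              rw [if_neg (by omega)] at h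
              linarith
            bd := fun k hk => (hD₁ k hk).2.2.2.2.1
            count := fun k hk => (hD₁ k hk).2.2.2.2.2 }⟩
  · rintro ⟨⟨u, s⟩, ⟨hu, hs⟩, rfl⟩
    obtain rfl : s = 0 := hs
    exact ⟨hc.sub (κ.mapsTo ⟨hu, h0⟩), (hc.lev u hu 0 h0).1⟩
  · have hY : y ∈ Y := by
      by_contra hY
      rcases hc.off y ⟨hy.1, hY⟩ with h | h <;> rw [hy.2] at h <;> norm_num at h
    obtain ⟨⟨u, s⟩, ⟨hu, hs⟩, rfl⟩ : y ∈ κ.toFun '' (m.G ×ˢ Icc (-1:ℝ) 1) := κ.image_eq.symm ▸ hY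
    exact ⟨(u, s), ⟨hu, ((hc.lev u hu s hs).1.symm.trans hy.2 : s = 0)⟩, rfl⟩
  · rw [he]
    exact (Hε u hu).2.1 i hi hT (hc.lev u hu 0 h0).2

end P073.T0.As
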