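import Vale.Agent.P073Z.T0.AsmA
import Vale.Agent.P073Z.DISC2.Path

/-!
# Block T0, assembly, second part: gluing the discs and filling the tiles
-/

open Set Metric Topology Filter
open scoped ENNReal

namespace P073.T0.As

variable {K : RCx E3} {F Ω : Set E3} {f : E3 → E3} {Q : K.ι → Set E3 → Prop}

/-- the embedding of the boundaries of the tiles -/
theorem exists_e {m : Model K F} (s : Src m Ω f Q) (hΩ : IsOpen Ω) (hf : ContinuousOn f Ω)
    (hm : MapsTo f Ω K.carrier) :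
    ∃ (Y : Set E3) (e : ConHomeo (⋃ i : {i // Tile K i}, m.B i) Y),
      EqOn e.toFun s.e₀.toFun m.G ∧ ∀ k, Mid K k → e.toFun '' m.D k = s.D₁ k := by
  have hsub : ∀ z ∈ s.Y₀ ∪ ⋃ k : {k // Mid K k}, s.D₁ k, z ∈ Ω := by
    rintro z (hz | hz)
    · exact ((s.zero z).1 hz).1
    · obtain ⟨k, hk⟩ := mem_iUnion.1 hz
      exact s.sub k.1 k.2 hk
  have hsub' : ∀ z ∈ m.G ∪ ⋃ k : {k // Mid K k}, m.D k, z ∈ K.carrier := by
    rintro z (hz | hz)
    · exact m.two.sub hz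
    · obtain ⟨k, hk⟩ := mem_iUnion.1 hz
      exact W_sub m k (m.X_sub k.1 k.2 (D_X m k.2 hk))
  have hW : LFIn (fun k : {k // Mid K k} => m.W k) K.carrier :=
    m.W_lf.comp_injective Subtype.val_injective
  obtain ⟨Φ, h1, h2⟩ := ConHomeo.exists_extend_cells (ι := {k // Mid K k}) s.e₀ (fun _ => 2)
    (fun k => m.D k) (fun k => m.J k) (fun k => s.D₁ k) (fun k => s.e₀.toFun '' m.J k)
    (fun k => m.disc k.1 k.2) (fun k => s.ball k.1 k.2) (fun _ => rfl)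
    (fun k => D_inter_G m k.2)
    (fun k => Subset.antisymm (fun y hy => s.bd k.1 k.2 y hy.1 ((s.zero y).1 hy.2).2)
      (subset_inter (s.ball k.1 k.2).1 (image_subset_iff.2 fun u hu => s.e₀.mapsTo (J_G m k.2 hu))))
    (fun k k' h => m.D_inter k.1 k'.1 k.2 k'.2 fun h' => h (Subtype.ext h'))
    (fun k k' h y hy => by
      by_cases hd : K.dim k.1 = K.dim k'.1
      · exact absurd (s.maps k'.1 k'.2 hy.2) (disjoint_left.1
          (m.W_disj k.1 k'.1 (fun h' => h (Subtype.ext h')) hd) (s.maps k.1 k.2 hy.1))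
      · refine (s.zero y).2 ⟨s.sub k.1 k.2 hy.1, ?_⟩
        rcases k.2 with h1 | h1 <;> rcases k'.2 with h2 | h2
        · exact absurd (h1.trans h2.symm) hd
        · exact le_antisymm (s.neg _ h1 y hy.1) (s.pos _ h2 y hy.2)
        · exact le_antisymm (s.neg _ h2 y hy.2) (s.pos _ h1 y hy.1)
        · exact absurd (h1.trans h2.symm) hd)
    (fun z hz => m.two.closedIn z (hsub' z hz))
    (fun z hz hc => by
      refine (s.zero z).2 ⟨hsub z hz, ?_⟩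
      have h1 : s.lam z ∈ closure (s.lam '' s.Y₀) :=
        ((s.cont z (hsub z hz)).mono fun y hy => ((s.zero y).1 hy).1).mem_closure_image hc
      have h2 : s.lam '' s.Y₀ ⊆ {0} := image_subset_iff.2 fun y hy => ((s.zero y).1 hy).2
      simpa using closure_mono h2 h1)
    (fun z hz => by
      obtain ⟨U, hU, hfin⟩ := hW z (hsub' z hz)
      exact ⟨U, hU, hfin.subset fun k ⟨y, hy, hyU⟩ => ⟨y, m.X_sub k.1 k.2 (D_X m k.2 hy), hyU⟩⟩)
    (fun z hz => by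
      obtain ⟨U, hU, hfin⟩ := hW _ (hm (hsub z hz))
      exact ⟨f ⁻¹' U, (hf.continuousAt (hΩ.mem_nhds (hsub z hz))) hU,
        hfin.subset fun k ⟨y, hy, hyU⟩ => ⟨f y, s.maps k.1 k.2 hy, hyU⟩⟩)
  have hE : (m.G ∪ ⋃ k : {k // Mid K k}, m.D k) = ⋃ i : {i // Tile K i}, m.B i := by
    ext x
    simp only [mem_union, mem_iUnion, Subtype.exists, exists_prop]
    exact (m.bd_union x).symm
  exact ⟨_, Φ.cast hE rfl, h1, fun k hk => h2 ⟨k, hk⟩⟩

theorem interior_closure_eq {N : Set E3} (hΩ : IsOpen Ω) (hN : ClosedIn N Ω)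
    (hN' : interior N = ∅) : interior (closure (N ∩ Ω)) = ∅ := by
  refine eq_empty_of_forall_notMem fun x hx => ?_
  obtain ⟨y, hy, hy'⟩ := mem_closure_iff.1 (interior_subset hx) _ isOpen_interior hx
  have h : interior (closure (N ∩ Ω)) ∩ Ω ⊆ interior N :=
    interior_maximal (fun z hz => hN z hz.2 (closure_mono inter_subset_left (interior_subset hz.1)))
      (isOpen_interior.inter hΩ)
  exact notMem_empty y (hN' ▸ h ⟨hy, hy'.2⟩)

/-- a function without zeros inside a ball, negative somewhere, is nonpositive -/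
theorem nonpos_of_ball {n : ℕ} {C B : Set E3} (h : ConBall n C B) {φ : E3 → ℝ}
    (hφ : ContinuousOn φ C) (h0 : ∀ x ∈ C \ B, φ x ≠ 0) {x₀ : E3} (hx₀ : x₀ ∈ C) (h1 : φ x₀ < 0) :
    ∀ x ∈ C, φ x ≤ 0 := by
  have h2 : ∀ᶠ y in 𝓝[C \ B] x₀, φ y < 0 :=
    ((hφ x₀ hx₀).mono sdiff_subset).eventually (gt_mem_nhds h1)
  have h3 : (𝓝[C \ B] x₀).NeBot := mem_closure_iff_nhdsWithin_neBot.1 (h.subset_closure_int hx₀)
  obtain ⟨x₁, h4, h5⟩ := (h2.and self_mem_nhdsWithin).exists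
  have h6 : ∀ x ∈ C \ B, φ x ≤ 0 := fun x hx => not_lt.1 fun h7 => by
    obtain ⟨y, hy, hy0⟩ := h.isConnected_int.isPreconnected.intermediate_value h5 hx
      (hφ.mono sdiff_subset) ⟨h4.le, h7.le⟩
    exact h0 y hy hy0
  intro x hx
  exact ContinuousWithinAt.closure_le (h.subset_closure_int hx) ((hφ x hx).mono sdiff_subset)
    continuousWithinAt_const h6

/-- filling the tiles -/
theorem fill (hA : ASMG) (hS : SCH3) {m : Model K F} (s : Src m Ω f Q) {N : Set E3}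
    {f' : E3 → E3} {O : K.ι → Set E3} (hΩ : IsOpen Ω) (hc : IsConnected Ω)
    (hf : HomeoOn f f' Ω K.carrier) (hN : ClosedIn N Ω) (hN' : interior N = ∅)
    (hO : ∀ i, IsOpen (O i) ∧ Convex ℝ (O i) ∧ O i ⊆ Ω ∧ f' '' K.star i ⊆ O i) (hOl : LFIn O Ω) :
    ∃ (g g' : E3 → E3) (Z : Set E3), HomeoOn g g' Ω K.carrier ∧ DiscreteIn Z Ω ∧ Disjoint Z N ∧
      ConicalOn g (Ω \ Z) ∧ (∀ x ∈ Ω, ∃ j, x ∈ O j ∧ g x ∈ K.star j) ∧
      ∀ y ∈ Ω, s.lam y = 1 → g y ∈ m.P ∧ ∀ k, K.dim k = 2 → g y ∈ K.cell k → y ∈ s.D₁ k := by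
  obtain ⟨Y, e, he, heD⟩ := exists_e s hΩ hf.cont hf.mapsTo
  have hB : ∀ i : {i // Tile K i}, ConBall 3 (m.T i) (m.B i) := fun i => m.ball i.1 i.2
  choose z hz using fun i => (hB i).diff_nonempty
  choose h g hh h1 h2 h3 using fun i : {i // Tile K i} =>
    hS (e.restr (hB i).conicalSet_bdry (subset_iUnion (fun i : {i // Tile K i} => m.B i) i))
      (hB i) (hz i) isClosed_closure (interior_closure_eq hΩ hN hN')
  have hTc : ∀ i, m.T i ⊆ K.carrier := fun i => (m.T_star i).trans (star_subset K i)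
  obtain ⟨H, G, hH, hHh, hZ, hcon, hHO⟩ := hA (fun i : {i // Tile K i} => m.T i)
    (fun i => m.B i) (fun i => O i) e h g z m.two.isOpen (hc.nonempty.image f |>.mono
      hf.mapsTo.image_subset) hΩ hc.isPreconnected hB
    (Subset.antisymm (iUnion_subset fun i => hTc i) fun x hx =>
      let ⟨i, hi, hx⟩ := m.cover x hx
      mem_iUnion.2 ⟨⟨i, hi⟩, hx⟩)
    (m.T_lf.comp_injective Subtype.val_injective)
    (fun i j hij => m.pair i.1 j.1 i.2 j.2 fun h' => hij (Subtype.ext h'))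
    (fun i => ⟨(hO i).2.1, by
      rintro _ ⟨x, hx, rfl⟩
      have key : e.toFun x ∈ Ω ∧ f (e.toFun x) ∈ K.star i := by
        rcases m.bd_sub i.1 i.2 x hx with hG | ⟨k, hk, hD, hW, -⟩
        · rw [he hG]
          exact ⟨((s.zero _).1 (s.e₀.mapsTo hG)).1, s.star i.1 i.2 x hG ((hB i).1 hx)⟩
        · have h4 : e.toFun x ∈ s.D₁ k := heD k hk ▸ mem_image_of_mem _ hD
          exact ⟨s.sub k hk h4, hW (s.maps k hk h4)⟩
      exact (hO i).2.2.2 ⟨_, key.2, hf.left_inv key.1⟩, (hO i).2.2.1⟩)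
    (hOl.comp_injective Subtype.val_injective) (fun i => ⟨hz i, hh i, h1 i, h2 i⟩)
  have inj := hH.left_inv.injOn
  have hHe : ∀ x, (x ∈ m.G ∨ ∃ k, Mid K k ∧ x ∈ m.D k) → H x = e.toFun x := fun x hx => by
    obtain ⟨i, hi, hxi⟩ := (m.bd_union x).2 hx
    exact (hHh ⟨i, hi⟩ ((hB ⟨i, hi⟩).1 hxi)).trans (h1 ⟨i, hi⟩ hxi)
  have hHD : ∀ k, Mid K k → ∀ x ∈ m.D k, H x ∈ s.D₁ k := fun k hk x hx => by
    rw [hHe x (Or.inr ⟨k, hk, hx⟩), ← heD k hk]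
    exact mem_image_of_mem _ hx
  have zero : ∀ x ∈ K.carrier, s.lam (H x) = 0 → x ∈ m.G := fun x hx h0 => by
    have h4 := (s.zero _).2 ⟨hH.mapsTo hx, h0⟩
    have h5 := s.e₀.mapsTo_inv h4
    have h6 : H (s.e₀.invFun (H x)) = H x := by
      rw [hHe _ (Or.inl h5), he h5, s.e₀.right_inv h4]
    exact inj (m.two.sub h5) hx h6 ▸ h5
  have hφ : ContinuousOn (fun x => s.lam (H x)) K.carrier := s.cont.comp hH.cont hH.mapsTo
  have black : ∀ i, K.dim i = 0 → ∀ x ∈ m.T i, s.lam (H x) ≤ 0 := fun i hi => by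
    obtain ⟨h4, k, hk, h5⟩ := m.black i hi
    have hb := m.ball i (Or.inl hi)
    obtain ⟨x₀, hx₀⟩ := (m.disc k (Or.inl hk)).diff_nonempty
    have h6 := hb.1 (h5 hx₀.1)
    exact nonpos_of_ball hb (hφ.mono (hTc i))
      (fun x hx h0 => not_G m (Or.inr (h4 hx)) (zero x (hTc i hx.1) h0)) h6
      (lt_of_le_of_ne (s.neg k hk _ (hHD k (Or.inl hk) x₀ hx₀.1)) fun h0 =>
        not_G m (Or.inr ((m.edge k hk).1 hx₀)) (zero x₀ (hTc i h6) h0))
  refine ⟨G, H, H '' range z, ⟨hH.mapsTo_inv, hH.mapsTo, hH.right_inv, hH.left_inv, hH.cont_inv,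
    hH.cont⟩, ⟨image_subset_iff.2 fun x hx => hH.mapsTo (hZ.1 hx), fun x hx => ?_⟩, ?_, ?_,
    fun x hx => ?_, fun y hy hl => ?_⟩
  · obtain ⟨U, hU, hfin⟩ := hZ.2 _ (hH.mapsTo_inv hx)
    refine ⟨G ⁻¹' U, (hH.cont_inv.continuousAt (hΩ.mem_nhds hx)) hU, (hfin.image H).subset ?_⟩
    rintro _ ⟨⟨w, hw, rfl⟩, hwU⟩
    exact ⟨w, ⟨hw, by rwa [mem_preimage, hH.left_inv (hZ.1 hw)] at hwU⟩, rfl⟩
  · rw [disjoint_left]
    rintro _ ⟨_, ⟨i, rfl⟩, rfl⟩ hn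
    refine h3 i (subset_closure ?_)
    rw [← hHh i (hz i).1]
    exact ⟨hn, hH.mapsTo (hTc i (hz i).1)⟩
  · refine hcon.inverse (fun x hx => ⟨hH.mapsTo hx.1, ?_⟩) (fun y hy => ⟨hH.mapsTo_inv hy.1,
      fun h4 => hy.2 ⟨_, h4, hH.right_inv hy.1⟩⟩) (hH.left_inv.mono sdiff_subset)
      (hH.right_inv.mono sdiff_subset) (hH.cont_inv.mono sdiff_subset)
    rintro ⟨w, hw, h4⟩
    exact hx.2 (inj (hZ.1 hw) hx.1 h4 ▸ hw)
  · obtain ⟨i, hi, h4⟩ := m.cover _ (hH.mapsTo_inv hx)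
    exact ⟨i, hHO ⟨i, hi⟩ ⟨_, h4, hH.right_inv hx⟩, m.T_star i h4⟩
  · have h4 : G y ∉ m.M ∪ m.G := fun h4 => by
      obtain ⟨i, hi, h5⟩ := m.black_cover _ h4
      have h6 := black i hi _ h5
      rw [hH.right_inv hy, hl] at h6
      linarith
    have h5 : G y ∈ m.P := by
      have h6 : G y ∈ m.P ∪ m.M := m.two.union ▸ ⟨hH.mapsTo_inv hy, fun h => h4 (Or.inr h)⟩
      exact h6.resolve_right fun h => h4 (Or.inl h)
    refine ⟨h5, fun k hk h6 => ?_⟩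
    rw [← hH.right_inv hy]
    exact hHD k (Or.inr hk) _ ((m.face k hk).2.2.2 ⟨h6, h5⟩)

/-- the model of the target, with the stars as neighbourhoods of the tiles -/
def MOD' : Prop := ∀ (K : RCx E3) {F : Set E3}, K.Cvx → IsOpen K.carrier → F ⊆ K.carrier →
  ClosedIn F K.carrier → Disjoint F (K.skel 1) →
  ∃ m : Model K F, ∀ i, Tile K i → ∀ x ∈ m.T i, K.star i ∈ 𝓝 x

/-- transfer of a two-sided surface -/
def TRA : Prop := ∀ {Ω Λ U G P M : Set E3} {f f' : E3 → E3} {ε : E3 → ℝ}, IsOpen Ω → IsOpen Λ →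
  HomeoOn f f' Ω Λ → GenBV f Ω → U ⊆ Λ → TwoSided U G P M → Gauge ε G →
  ∃ (Y : Set E3) (κ : ConHomeo (G ×ˢ Icc (-1:ℝ) 1) Y) (lam : E3 → ℝ),
    Fol (Ω ∩ f ⁻¹' U) f G P M ε Y κ lam

/-- transfer of a disc in a two-cell -/
def TRB : Prop := ∀ {Ω Λ X B : Set E3} {f f' : E3 → E3} {ι : Type} (a b : ι → E3) (K : RCx E3)
  {S : K.ι} {δ : ℝ}, IsOpen Ω → IsOpen Λ → HomeoOn f f' Ω Λ → GenBV f Ω →
  (∀ e, segment ℝ (a e) (b e) ⊆ Ω ∧ segVar f (a e) (b e) < ⊤) →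
  LFIn (fun e => segment ℝ (a e) (b e)) Ω → K.Cvx → K.carrier = Λ → GoodLev K f a b →
  K.dim S = 2 → ConBall 2 X B → X ⊆ K.ocell S → 0 < δ →
  ∃ (D₀ : Set E3) (d : ConHomeo X D₀), D₀ ⊆ Ω ∧ (∀ x ∈ X, dist (f (d.toFun x)) x < δ) ∧
    ∀ e, ((segment ℝ (a e) (b e) ∩ D₀).encard : ℝ≥0∞) ≤ cnt f (a e) (b e) (K.cell S)

theorem t0_of_parts (hM : MOD') (h1 : TRA) (h2 : TRB) (hL : LH3) (hA : ASMG) (hS : SCH3) :
    T0 := by
  intro Ω Λ N f f' ι a b K O hΩ hΛ hc hf hBV hN hN' hw hlf hK hKΛ hG hO hOl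
  subst hKΛ
  have hcl : ClosedIn (⋃ e, f '' segment ℝ (a e) (b e)) K.carrier := by
    have h3 := hlf.image Subset.rfl (fun e => (hw e).1) hf.mapsTo hf.left_inv hf.cont_inv
    refine (h3.mono fun y hy => ⟨_, hf.mapsTo_inv hy, hf.right_inv hy⟩).closedIn_of_cover
      (fun e => ?_) fun y hy => ?_
    · rw [segment_eq_image_lineMap]
      refine ((isCompact_Icc.image AffineMap.lineMap_continuous).image_of_continuousOn
        (hf.cont.mono ?_)).isClosed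
      rw [← segment_eq_image_lineMap]
      exact (hw e).1
    · obtain ⟨e, he⟩ := mem_iUnion.1 hy
      exact ⟨e, he, subset_iUnion (fun e => f '' segment ℝ (a e) (b e)) e⟩
  obtain ⟨m, hm⟩ := hM K hK hΛ
    (iUnion_subset fun e => image_subset_iff.2 fun x hx => hf.mapsTo ((hw e).1 hx)) hcl
    (disjoint_iUnion_left.2 fun e => (hw e).2.2)
  obtain ⟨s⟩ := exists_src hL m hcl hm (Ω := Ω) (f := f)
    (Q := fun k D₀ => K.dim k = 2 → ∀ e,
      ((segment ℝ (a e) (b e) ∩ D₀).encard : ℝ≥0∞) ≤ cnt f (a e) (b e) (K.cell k))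
    (fun ε hε => by
      obtain ⟨Y, κ, lam, h3⟩ := h1 hΩ hΛ hf hBV Subset.rfl m.two hε
      rw [inter_eq_left.2 (show Ω ⊆ f ⁻¹' K.carrier from hf.mapsTo)] at h3
      exact ⟨Y, κ, lam, h3⟩)
    (fun k hk δ hδ => by
      rcases hk with hk | hk
      · obtain ⟨-, -, U, G', P', M', h3, h4, h5⟩ := m.edge k hk
        obtain ⟨Y, κ, lam, h6⟩ := h1 hΩ hΛ hf hBV (h4.trans (W_sub m k)) h3 (gauge_const hδ)
        obtain ⟨e, he⟩ := exists_sec κ
        have h0 : (0:ℝ) ∈ Icc (-1:ℝ) 1 := ⟨by norm_num, by norm_num⟩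
        refine ⟨_, e.restr (m.big k (Or.inl hk)).conicalSet h5, ?_, fun x hx => ?_,
          fun h => absurd (hk.symm.trans h) (by norm_num)⟩
        · rintro _ ⟨x, hx, rfl⟩
          rw [he]
          exact (h6.sub (κ.mapsTo ⟨h5 hx, h0⟩)).1
        · rw [ConHomeo.restr_toFun, he]
          exact (h6.lev x (h5 hx) 0 h0).2
      · obtain ⟨D₀, d, h3, h4, h5⟩ := h2 a b K hΩ hΛ hf hBV (fun e => ⟨(hw e).1, (hw e).2.1⟩) hlf
          hK rfl hG hk (m.big k (Or.inr hk)) (m.face k hk).1 hδ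
        exact ⟨D₀, d, h3, h4, fun _ => h5⟩)
  obtain ⟨g, g', Z, b1, b2, b3, b4, b5, b6⟩ := fill hA hS s hΩ hc hf hN hN' hO hOl
  refine ⟨g, g', Z, b1, b2, b3, b4, b5, fun e => ?_⟩
  have key : ∀ y ∈ segment ℝ (a e) (b e), s.lam y = 1 := fun y hy =>
    s.wire y ((hw e).1 hy) (mem_iUnion.2 ⟨e, mem_image_of_mem f hy⟩)
  refine ⟨disjoint_left.2 ?_, fun S hS => ?_⟩
  · rintro _ ⟨y, hy, rfl⟩ hsk
    exact disjoint_left.1 m.two.disj (b6 y ((hw e).1 hy) (key y hy)).1 (m.skel_sub hsk)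
  · obtain ⟨D₀, h3, h4⟩ := s.count S (Or.inr hS)
    refine le_trans ?_ (h3 hS e)
    unfold cnt
    gcongr
    exact fun y hy => ⟨hy.1, h4 y ((b6 y ((hw e).1 hy.1) (key y hy.1)).2 S hS hy.2) (key y hy.1)⟩

end P073.T0.As
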