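import Vale.Agent.P073Z.T0.ModelStmt
import Vale.Agent.P073Z.RCX
import Vale.Agent.P073Z.A1
import Vale.Agent.P073Z.A2.PL

/-!
# Calculus of derived coordinates
-/

open Set Metric Topology Filter

namespace P073.T0

/-- comparable cells -/
def Cmp (K : RCx E3) (i j : K.ι) : Prop := K.cell i ⊆ K.cell j ∨ K.cell j ⊆ K.cell i

variable {K : RCx E3} (d : Derived K) {x y : E3} {i j k : K.ι} {c : K.ι → ℝ}

theorem Cmp.symm (h : Cmp K i j) : Cmp K j i := Or.symm h

theorem Cmp.refl (i : K.ι) : Cmp K i i := Or.inl Subset.rfl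

theorem Cmp.sub (h : Cmp K i j) (hd : K.dim i ≤ K.dim j) : K.cell i ⊆ K.cell j := by
  rcases h with h | h
  · exact h
  · rw [K.eq_of_subset_of_dim_le h hd]

theorem Cmp.eq (h : Cmp K i j) (hd : K.dim i = K.dim j) : i = j :=
  K.eq_of_subset_of_dim_le (h.sub hd.le) hd.ge

theorem finite_cmp (i : K.ι) : {j | Cmp K i j}.Finite :=
  ((K.finite_cofaces i).union (K.finite_faces i)).subset fun _ h => h

theorem t_pos (h : d.t i x ≠ 0) : 0 < d.t i x := (d.nonneg i x).lt_of_ne h.symm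

theorem mem_of_t (h : d.t i x ≠ 0) : x ∈ K.carrier := by
  by_contra hx
  exact h (d.zero_out i x hx)

theorem b_mem (i : K.ι) : d.b i ∈ K.carrier := K.cell_subset_carrier i (d.b_mem i).1

theorem finite_supp (x : E3) : {i | d.t i x ≠ 0}.Finite := by
  by_cases hx : x ∈ K.carrier
  · obtain ⟨s, hs, -⟩ := d.repr x hx
    exact s.finite_toSet.subset fun i hi => (hs i).1 hi
  · exact finite_empty.subset fun i hi => hi (d.zero_out i x hx)

theorem sum_t (hx : x ∈ K.carrier) {s : Finset K.ι} (hs : ∀ i, d.t i x ≠ 0 → i ∈ s) :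
    ∑ i ∈ s, d.t i x = 1 ∧ ∑ i ∈ s, d.t i x • d.b i = x := by
  obtain ⟨s₀, h₀, h₁, h₂⟩ := d.repr x hx
  have hsub : s₀ ⊆ s := fun i hi => hs i ((h₀ i).2 hi)
  have hz : ∀ i ∈ s, i ∉ s₀ → d.t i x = 0 := fun i _ hi => by
    by_contra h
    exact hi ((h₀ i).1 h)
  refine ⟨?_, ?_⟩
  · rw [← h₁]
    exact (Finset.sum_subset hsub hz).symm
  · refine Eq.trans ?_ h₂
    exact (Finset.sum_subset hsub fun i hi hi' => by rw [hz i hi hi', zero_smul]).symm

theorem exists_finset (x y : E3) : ∃ s : Finset K.ι, ∀ i, i ∈ s ↔ d.t i x ≠ 0 ∨ d.t i y ≠ 0 :=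
  ⟨((finite_supp d x).union (finite_supp d y)).toFinset, fun i => by
    rw [Finite.mem_toFinset]; rfl⟩

theorem t_b (i j : K.ι) [Decidable (j = i)] : d.t j (d.b i) = if j = i then 1 else 0 := by
  classical
  obtain ⟨-, h1, h2⟩ := d.coord {i} (fun _ => 1) (by
    intro a ha b hb
    rw [Finset.mem_singleton.1 ha, Finset.mem_singleton.1 hb]
    exact Or.inl Subset.rfl) (fun _ _ => zero_le_one) (by simp)
  simp only [Finset.sum_singleton, one_smul, Finset.mem_singleton] at h1 h2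
  split_ifs with h
  · exact h1 j h
  · exact h2 j h

theorem t_b_self (i : K.ι) : d.t i (d.b i) = 1 := by
  classical
  rw [t_b, if_pos rfl]

theorem eq_of_t_b (h : d.t j (d.b i) ≠ 0) : j = i := by
  classical
  by_contra hn
  rw [t_b, if_neg hn] at h
  exact h rfl

/-- points in a common simplex -/
def Cpt (x y : E3) : Prop := ∀ i j, d.t i x ≠ 0 → d.t j y ≠ 0 → Cmp K i j

theorem comb (hx : x ∈ K.carrier) (hy : y ∈ K.carrier) (h : Cpt d x y) {s : ℝ}
    (h0 : 0 ≤ s) (h1 : s ≤ 1) : x + s • (y - x) ∈ K.carrier ∧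
    ∀ j, d.t j (x + s • (y - x)) = (1 - s) * d.t j x + s * d.t j y := by
  obtain ⟨S, hS⟩ := exists_finset d x y
  obtain ⟨hx1, hx2⟩ := sum_t d hx fun i hi => (hS i).2 (Or.inl hi)
  obtain ⟨hy1, hy2⟩ := sum_t d hy fun i hi => (hS i).2 (Or.inr hi)
  have he : ∑ i ∈ S, ((1 - s) * d.t i x + s * d.t i y) • d.b i = x + s • (y - x) := by
    simp only [add_smul, mul_smul, Finset.sum_add_distrib, ← Finset.smul_sum, hx2, hy2]
    module
  obtain ⟨a1, a2, a3⟩ := d.coord S (fun i => (1 - s) * d.t i x + s * d.t i y) (by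
    intro a ha b hb
    rcases (hS a).1 ha with ha | ha <;> rcases (hS b).1 hb with hb | hb
    · exact d.chain x a b ha hb
    · exact h a b ha hb
    · exact (h b a hb ha).symm
    · exact d.chain y a b ha hb)
    (fun i _ => add_nonneg (mul_nonneg (sub_nonneg.2 h1) (d.nonneg i x))
      (mul_nonneg h0 (d.nonneg i y)))
    (by simp only [Finset.sum_add_distrib, ← Finset.mul_sum, hx1, hy1]; ring)
  rw [he] at a1 a2 a3
  refine ⟨a1, fun j => ?_⟩
  by_cases hj : j ∈ S
  · exact a2 j hj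
  · rw [a3 j hj]
    have h2 := mt (hS j).2 hj
    push Not at h2
    rw [h2.1, h2.2]
    ring

/-- the function which is affine on the simplices with value `c i` at the barycentre `i` -/
noncomputable def L (c : K.ι → ℝ) (x : E3) : ℝ := ∑ᶠ i, c i * d.t i x

theorem L_eq (c : K.ι → ℝ) {s : Finset K.ι} (hs : ∀ i, d.t i x ≠ 0 → i ∈ s) :
    L d c x = ∑ i ∈ s, c i * d.t i x :=
  finsum_eq_sum_of_support_subset _ fun i hi => hs i fun h => hi (by simp only [h, mul_zero])

theorem exists_supp (x : E3) : ∃ s : Finset K.ι, ∀ i, i ∈ s ↔ d.t i x ≠ 0 :=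
  ⟨(finite_supp d x).toFinset, fun i => by rw [Finite.mem_toFinset]; rfl⟩

theorem L_comb (c : K.ι → ℝ) (hx : x ∈ K.carrier) (hy : y ∈ K.carrier) (h : Cpt d x y) {s : ℝ}
    (h0 : 0 ≤ s) (h1 : s ≤ 1) : L d c (x + s • (y - x)) = (1 - s) * L d c x + s * L d c y := by
  obtain ⟨S, hS⟩ := exists_finset d x y
  obtain ⟨-, h2⟩ := comb d hx hy h h0 h1
  rw [L_eq d c (s := S) fun i hi => (hS i).2 (Or.inl hi),
    L_eq d c (s := S) fun i hi => (hS i).2 (Or.inr hi), L_eq d c (s := S) fun i hi => by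
      by_contra hn
      have h3 := mt (hS i).2 hn
      push Not at h3
      rw [h2, h3.1, h3.2] at hi
      exact hi (by ring)]
  simp only [h2, Finset.mul_sum, ← Finset.sum_add_distrib]
  exact Finset.sum_congr rfl fun i _ => by ring

theorem L_b (c : K.ι → ℝ) (i : K.ι) : L d c (d.b i) = c i := by
  rw [L_eq d c (s := {i}) fun j hj => Finset.mem_singleton.2 (eq_of_t_b d hj),
    Finset.sum_singleton, t_b_self, mul_one]

open Classical in
/-- the weights with the weight at `k` multiplied by `1 + r` -/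
noncomputable def up (c : K.ι → ℝ) (k : K.ι) (r : ℝ) : K.ι → ℝ :=
  fun j => if j = k then (1 + r) * c k else c j

theorem up_self (c : K.ι → ℝ) (k : K.ι) (r : ℝ) : up c k r k = (1 + r) * c k := if_pos rfl

theorem L_up (c : K.ι → ℝ) (k : K.ι) (r : ℝ) (x : E3) :
    L d (up c k r) x = L d c x + r * c k * d.t k x := by
  classical
  obtain ⟨S, hS⟩ := exists_supp d x
  have h1 : ∀ i, d.t i x ≠ 0 → i ∈ insert k S := fun i hi =>
    Finset.mem_insert_of_mem ((hS i).2 hi)
  rw [L_eq d _ h1, L_eq d _ h1, ← Finset.add_sum_erase _ _ (Finset.mem_insert_self k S),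
    ← Finset.add_sum_erase _ _ (Finset.mem_insert_self k S), up_self]
  have h2 : ∑ j ∈ (insert k S).erase k, up c k r j * d.t j x =
      ∑ j ∈ (insert k S).erase k, c j * d.t j x :=
    Finset.sum_congr rfl fun j hj => by rw [up, if_neg (Finset.ne_of_mem_erase hj)]
  rw [h2]
  ring

theorem exists_t (hx : x ∈ K.carrier) : ∃ i, d.t i x ≠ 0 := by
  obtain ⟨m, hm⟩ := K.exists_ocell hx
  exact ⟨m, (d.top m x hm).1⟩

/-- if all the weights seen at `x` have the sign opposite to `a`, so has `L` -/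
theorem neg_of_opp {a : ℝ} (hx : x ∈ K.carrier) (h : ∀ j, d.t j x ≠ 0 → a * c j < 0) :
    a * L d c x < 0 := by
  obtain ⟨S, hS⟩ := exists_supp d x
  obtain ⟨m, hm⟩ := exists_t d hx
  rw [L_eq d c fun i hi => (hS i).2 hi, Finset.mul_sum]
  refine Finset.sum_neg (fun j hj => ?_) ⟨m, (hS m).2 hm⟩
  rw [← mul_assoc]
  exact mul_neg_of_neg_of_pos (h j ((hS j).1 hj)) (t_pos d ((hS j).1 hj))

theorem exists_same {a : ℝ} (ha : a ≠ 0) (hc : ∀ j, c j ≠ 0) (hx : x ∈ K.carrier)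
    (h : 0 ≤ a * L d c x) : ∃ j, d.t j x ≠ 0 ∧ 0 < a * c j := by
  by_contra hn
  push Not at hn
  exact absurd (neg_of_opp d hx fun j hj =>
    (hn j hj).lt_of_ne (mul_ne_zero ha (hc j))) (not_lt.2 h)

theorem L_eq_zero_iff (hc : ∀ j, 0 ≤ c j) :
    L d c x = 0 ↔ ∀ j, d.t j x ≠ 0 → c j = 0 := by
  obtain ⟨S, hS⟩ := exists_supp d x
  rw [L_eq d c fun i hi => (hS i).2 hi,
    Finset.sum_eq_zero_iff_of_nonneg fun j _ => mul_nonneg (hc j) (d.nonneg j x)]
  exact ⟨fun h j hj => (mul_eq_zero.1 (h j ((hS j).2 hj))).resolve_right hj,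
    fun h j hj => by rw [h j ((hS j).1 hj), zero_mul]⟩

/-- near a point only finitely many cells are comparable with the carrier cells -/
theorem exists_local (hx : x ∈ K.carrier) : ∃ I : Set K.ι, I.Finite ∧
    ∀ᶠ y in 𝓝 x, ∀ m, y ∈ K.cell m → ∀ i, Cmp K m i → i ∈ I := by
  refine ⟨⋃ m ∈ {m | x ∈ K.cell m}, {i | Cmp K m i},
    (K.finite_mem hx).biUnion fun m _ => finite_cmp m, ?_⟩
  filter_upwards [K.eventually_star hx] with y hy m hm i hi
  exact mem_biUnion (hy m hm) hi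

theorem pl_L (c : K.ι → ℝ) : PLOn (L d c) K.carrier := by
  refine A2.pl_of_local fun x hx => ?_
  obtain ⟨I, hI, hev⟩ := exists_local hx
  refine ⟨fun y => ∑ i ∈ hI.toFinset, c i * d.t i y,
    A2.pl_sum _ K.sub_carrier.conicalSet fun i _ => A2.pl_mul _ (d.pl i), ?_⟩
  filter_upwards [mem_nhdsWithin_of_mem_nhds hev, self_mem_nhdsWithin] with y hy hyc
  obtain ⟨m, hm⟩ := K.exists_ocell hyc
  exact L_eq d c fun i hi => hI.mem_toFinset.2 (hy m hm.1 i (Or.inr ((d.top m y hm).2 i hi)))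

/-- the closed star of a barycentre -/
def St (i : K.ι) : Set E3 := {x ∈ K.carrier | ∀ j, d.t j x ≠ 0 → Cmp K i j}

/-- the open star of a barycentre -/
def W (i : K.ι) : Set E3 := {x ∈ K.carrier | 0 < d.t i x}

theorem mem_St (h : d.t i x ≠ 0) : x ∈ St d i := ⟨mem_of_t d h, fun j hj => d.chain x i j h hj⟩

theorem W_sub_St (i : K.ι) : W d i ⊆ St d i := fun _ hx => mem_St d hx.2.ne'

theorem cpt_b_left (hx : x ∈ St d i) : Cpt d (d.b i) x := fun a b ha hb => by
  rw [eq_of_t_b d ha]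
  exact hx.2 b hb

theorem cpt_b_right (hx : x ∈ St d i) : Cpt d x (d.b i) := fun a b ha hb =>
  (cpt_b_left d hx b a hb ha).symm

theorem St.exists_coface (hx : x ∈ St d i) : ∃ m, K.cell i ⊆ K.cell m ∧ x ∈ K.cell m := by
  obtain ⟨m, hm⟩ := K.exists_ocell hx.1
  rcases hx.2 m (d.top m x hm).1 with h | h
  · exact ⟨m, h, hm.1⟩
  · exact ⟨i, Subset.rfl, h hm.1⟩

theorem St_sub_star (h : Cmp K k i) : St d k ⊆ K.star i := fun x hx => by
  obtain ⟨m, hm, hxm⟩ := St.exists_coface d hx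
  refine mem_iUnion₂.2 ⟨m, ?_, hxm⟩
  rcases h with h | h
  · obtain ⟨y, hy⟩ := K.cell_nonempty k
    exact ⟨y, hm hy, h hy⟩
  · obtain ⟨y, hy⟩ := K.cell_nonempty i
    exact ⟨y, hm (h hy), hy⟩

theorem St_lf : LFIn (St d) K.carrier := fun x hx => by
  obtain ⟨I, hI, hev⟩ := exists_local hx
  refine ⟨_, hev, hI.subset ?_⟩
  rintro i ⟨y, hy, hyU⟩
  obtain ⟨m, hm, hym⟩ := St.exists_coface d hy
  exact hyU m hym i (Or.inr hm)

theorem isCompact_of_St {Z : Set E3} (hZ : Z ⊆ St d i) (hc : ClosedIn Z K.carrier) :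
    IsCompact Z := by
  have hC : IsCompact (⋃ m ∈ {m | K.cell i ⊆ K.cell m}, K.cell m) :=
    (K.finite_cofaces i).isCompact_biUnion fun m _ => K.isCompact_cell m
  have hsub : Z ⊆ ⋃ m ∈ {m | K.cell i ⊆ K.cell m}, K.cell m := fun x hx => by
    obtain ⟨m, hm, hxm⟩ := St.exists_coface d (hZ hx)
    exact mem_biUnion hm hxm
  refine hC.of_isClosed_subset (closure_subset_iff_isClosed.1 fun x hx => hc x ?_ hx) hsub
  obtain ⟨m, -, hm⟩ := mem_iUnion₂.1 (closure_minimal hsub hC.isClosed hx)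
  exact K.cell_subset_carrier m hm

/-- closed polyhedral subsets of an open set -/
def Poly (U Z : Set E3) : Prop := ClosedIn Z U ∧ LocConeOn Z U

theorem Poly.inter {U Z Z' : Set E3} (h : Poly U Z) (h' : Poly U Z') : Poly U (Z ∩ Z') :=
  ⟨fun x hx hc => ⟨h.1 x hx (closure_mono inter_subset_left hc),
    h'.1 x hx (closure_mono inter_subset_right hc)⟩, fun x hx => (h.2 x hx).inter (h'.2 x hx)⟩

theorem poly_pre {U : Set E3} (hU : IsOpen U) {g : E3 → ℝ} (hg : PLOn g U) {Y : Set ℝ}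
    (hY : IsClosed Y) (hl : LocCone Y) : Poly U {x ∈ U | g x ∈ Y} := by
  refine ⟨fun x hx hc => ⟨hx, ?_⟩, fun x hx => ?_⟩
  · have h1 : ContinuousAt g x := hg.1.continuousAt (hU.mem_nhds hx)
    exact hY.closure_subset (mem_closure_image h1 hc |> closure_mono (by
      rintro _ ⟨y, hy, rfl⟩
      exact hy.2))
  · exact pre hx (locConeAt_of_mem_nhds (hU.mem_nhds hx)) (hg.1 x hx) (hg.2 x hx) (hl _)

theorem poly_ge {U : Set E3} (hU : IsOpen U) {g : E3 → ℝ} (hg : PLOn g U) :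
    Poly U {x ∈ U | 0 ≤ g x} :=
  poly_pre hU hg (Y := Ici 0) isClosed_Ici
    (locCone_setOf_ge continuous_id (conicalOn_id A2.conicalSet_univ) 0)

theorem poly_eq {U : Set E3} (hU : IsOpen U) {g : E3 → ℝ} (hg : PLOn g U) :
    Poly U {x ∈ U | g x = 0} :=
  poly_pre hU hg (Y := {0}) isClosed_singleton
    (locCone_setOf_eq continuous_id (conicalOn_id A2.conicalSet_univ) 0)

theorem isOpen_pos {U : Set E3} (hU : IsOpen U) {g : E3 → ℝ} (hg : ContinuousOn g U) :
    IsOpen {x ∈ U | 0 < g x} := hg.isOpen_inter_preimage hU isOpen_Ioi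

/-- the points whose support satisfies a predicate -/
theorem poly_supp (ho : IsOpen K.carrier) (p : K.ι → Prop) :
    Poly K.carrier {x ∈ K.carrier | ∀ j, d.t j x ≠ 0 → p j} := by
  classical
  have h := poly_eq ho (pl_L d fun j => if p j then 0 else 1)
  have he : {x ∈ K.carrier | ∀ j, d.t j x ≠ 0 → p j} =
      {x ∈ K.carrier | L d (fun j => if p j then 0 else 1) x = 0} := by
    ext x
    simp only [mem_ofPred_eq]
    rw [L_eq_zero_iff d fun j => by split_ifs <;> norm_num]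
    simp
  rw [he]
  exact h

theorem Poly.locCone {U Z : Set E3} (h : Poly U Z) (hZ : Z ⊆ U) (hc : IsCompact Z) :
    LocCone Z := fun x => by
  by_cases hx : x ∈ Z
  · exact h.2 x (hZ hx)
  · exact locConeAt_of_compl_mem_nhds (hc.isClosed.isOpen_compl.mem_nhds hx)

theorem W_open (ho : IsOpen K.carrier) (i : K.ι) : IsOpen (W d i) := isOpen_pos ho (d.pl i).1

theorem W_disj (hne : i ≠ j) (hd : K.dim i = K.dim j) : Disjoint (W d i) (W d j) :=
  Set.disjoint_left.2 fun x hi hj => hne (Cmp.eq (d.chain x i j hi.2.ne' hj.2.ne') hd)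

theorem mem_closure_of_ray {Z : Set E3}
    (h : ∀ᶠ s in 𝓝[>] (0:ℝ), x + s • (y - x) ∈ Z) : x ∈ closure Z := by
  have h1 : Tendsto (fun s : ℝ => x + s • (y - x)) (𝓝[>] 0) (𝓝 x) := by
    have h2 : Continuous fun s : ℝ => x + s • (y - x) := by fun_prop
    have h3 := h2.tendsto 0
    simp only [zero_smul, add_zero] at h3
    exact h3.mono_left nhdsWithin_le_nhds
  exact mem_closure_of_tendsto h1 h

theorem eventually_ray {U : Set E3} (hU : U ∈ 𝓝 x) (y : E3) :
    ∀ᶠ s in 𝓝[>] (0:ℝ), 0 < s ∧ s ≤ 1 ∧ x + s • (y - x) ∈ U := by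
  have h2 : Continuous fun s : ℝ => x + s • (y - x) := by fun_prop
  have h3 := h2.tendsto 0
  simp only [zero_smul, add_zero] at h3
  filter_upwards [Ioc_mem_nhdsGT zero_lt_one, (h3.mono_left nhdsWithin_le_nhds) hU] with s h1 h4
  exact ⟨h1.1, h1.2, h4⟩

/-- the point of the level set on an edge of the subdivision -/
theorem exists_mid (h : Cmp K i j) (hc : c i * c j < 0) : ∃ a ∈ K.carrier, L d c a = 0 ∧
    0 < d.t i a ∧ 0 < d.t j a ∧ ∀ m, d.t m a ≠ 0 → m = i ∨ m = j := by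
  have hp : Cpt d (d.b i) (d.b j) := fun a b ha hb => by
    rw [eq_of_t_b d ha, eq_of_t_b d hb]
    exact h
  have hi : c i ≠ 0 := fun h0 => by rw [h0, zero_mul] at hc; exact lt_irrefl _ hc
  have hq : 0 < c i * c i := mul_self_pos.2 hi
  have hD : 0 < c i * c i - c i * c j := by linarith
  set s := c i * c i / (c i * c i - c i * c j) with hs
  have h0 : 0 < s := div_pos hq hD
  have h1 : s < 1 := (div_lt_one hD).2 (by linarith)
  obtain ⟨a1, a2⟩ := comb d (b_mem d i) (b_mem d j) hp h0.le h1.le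
  refine ⟨_, a1, ?_, ?_, ?_, fun m hm => ?_⟩
  · rw [L_comb d c (b_mem d i) (b_mem d j) hp h0.le h1.le, L_b, L_b]
    have h3 : s * (c i * c i - c i * c j) = c i * c i := div_mul_cancel₀ _ hD.ne'
    apply mul_left_cancel₀ hi
    linear_combination (-1) * h3
  · rw [a2, t_b_self]
    have := mul_nonneg h0.le (d.nonneg i (d.b j))
    linarith
  · rw [a2, t_b_self]
    have := mul_nonneg (sub_nonneg.2 h1.le) (d.nonneg j (d.b i))
    linarith
  · by_contra hn
    push Not at hn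
    rw [a2, of_not_not (mt (eq_of_t_b d) hn.1), of_not_not (mt (eq_of_t_b d) hn.2)] at hm
    exact hm (by ring)

end P073.T0
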