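import Vale.Agent.P073Z.T0.Coord
import Vale.Agent.P073Z.MAN
import Vale.Agent.P073Z.A12

/-!
# Balls, discs and the surface of the handle structure
-/

open Set Metric Topology Filter

namespace P073.T0

variable {K : RCx E3} (d : Derived K) {x y : E3} {i j k : K.ι} {c : K.ι → ℝ}

/-! ### combinatorics -/

/-- cells of the same colour -/
def Same (K : RCx E3) (i j : K.ι) : Prop := (K.dim i ≤ 1 ↔ K.dim j ≤ 1)

/-- weights: negative on black cells, positive on white cells -/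
def Wt (K : RCx E3) (c : K.ι → ℝ) : Prop :=
  ∀ i, (K.dim i ≤ 1 → c i < 0) ∧ (¬ K.dim i ≤ 1 → 0 < c i)

theorem Wt.ne (hc : Wt K c) (i : K.ι) : c i ≠ 0 := by
  by_cases h : K.dim i ≤ 1
  · exact ((hc i).1 h).ne
  · exact ((hc i).2 h).ne'

theorem Wt.pos (hc : Wt K c) (h : Same K i j) : 0 < c i * c j := by
  by_cases hi : K.dim i ≤ 1
  · exact mul_pos_of_neg_of_neg ((hc i).1 hi) ((hc j).1 (h.1 hi))
  · exact mul_pos ((hc i).2 hi) ((hc j).2 (mt h.2 hi))

theorem Wt.neg (hc : Wt K c) (h : ¬ Same K i j) : c i * c j < 0 := by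
  unfold Same at h
  by_cases hi : K.dim i ≤ 1
  · exact mul_neg_of_neg_of_pos ((hc i).1 hi) ((hc j).2 (by tauto))
  · exact mul_neg_of_pos_of_neg ((hc i).2 hi) ((hc j).1 (by tauto))

theorem Wt.same (hc : Wt K c) (h : 0 < c i * c j) : Same K i j := by
  by_contra hn
  exact absurd (hc.neg hn) (not_lt.2 h.le)

theorem Wt.up (hc : Wt K c) (k : K.ι) {r : ℝ} (hr : 0 ≤ r) : Wt K (up c k r) := fun i => by
  unfold T0.up
  split_ifs with h
  · subst h
    exact ⟨fun h => mul_neg_of_pos_of_neg (by linarith) ((hc i).1 h),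
      fun h => mul_pos (by linarith) ((hc i).2 h)⟩
  · exact hc i

theorem Wt.sign (hc : Wt K c) (h : Same K i j) {a : ℝ} (ha : 0 ≤ c i * a) : 0 ≤ c j * a := by
  have h1 := hc.pos h
  have h2 : 0 < c i * c i := mul_self_pos.2 (hc.ne i)
  by_contra hn
  push Not at hn
  nlinarith [mul_nonneg ha h1.le, mul_neg_of_pos_of_neg h2 hn]

theorem Wt.sign_opp (hc : Wt K c) (h : ¬ Same K i j) {a : ℝ} (ha : 0 ≤ c i * a)
    (hb : 0 ≤ c j * a) : a = 0 := by
  have h1 := hc.neg h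
  have h2 := mul_nonneg ha hb
  by_contra hn
  nlinarith [mul_neg_of_neg_of_pos h1 (mul_self_pos.2 hn)]

theorem dim_le_three (ho : IsOpen K.carrier) (i : K.ι) : K.dim i ≤ 3 :=
  (plMan_open ho).ball_dim_le (K.ball i) (K.cell_subset_carrier i)

theorem exists_three (ho : IsOpen K.carrier) (i : K.ι) :
    ∃ j, K.cell i ⊆ K.cell j ∧ K.dim j = 3 :=
  let ⟨j, h1, _, h2⟩ := (man K K.sub_carrier (n := 2) (plMan_open ho)).2.1 i
    (K.cell_subset_carrier i)
  ⟨j, h1, h2⟩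

theorem exists_facet {n : ℕ} (hj : K.dim j = n + 2) (h : K.cell i ⊆ K.bd j) :
    ∃ m, K.cell i ⊆ K.cell m ∧ K.dim m = n + 1 :=
  let ⟨m, h1, _, h2⟩ := (man K (K.sub_bd j) (n := n)
    (ConBall.conSphere (hj ▸ K.ball j)).plMan).2.1 i h
  ⟨m, h1, h2⟩

theorem exists_edge (ho : IsOpen K.carrier) (hi : K.dim i = 0) :
    ∃ e, K.cell i ⊆ K.cell e ∧ K.dim e = 1 := by
  obtain ⟨q, h1, h2⟩ := exists_three ho i
  obtain ⟨s, h3, h4⟩ := exists_facet (n := 1) h2 (K.subset_bd_of_dim_lt h1 (by omega))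
  exact exists_facet (n := 0) h4 (K.subset_bd_of_dim_lt h3 (by omega))

theorem exists_vertex (i : K.ι) : ∃ v, K.cell v ⊆ K.cell i ∧ K.dim v = 0 := by
  obtain ⟨v, hv, hmin⟩ := exists_min_image {j | K.cell j ⊆ K.cell i} K.dim (K.finite_faces i)
    ⟨i, Subset.rfl⟩
  refine ⟨v, hv, ?_⟩
  by_contra hn
  obtain ⟨n, hn⟩ := Nat.exists_eq_succ_of_ne_zero hn
  obtain ⟨φ⟩ := ConBall.conSphere (hn ▸ K.ball v)
  obtain ⟨z, hz⟩ : (sphere (0 : Fin (n + 1) → ℝ) 1).Nonempty :=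
    NormedSpace.sphere_nonempty.2 zero_le_one
  obtain ⟨m, -, h1, h2⟩ := K.exists_face_bd (φ.mapsTo_inv hz)
  exact absurd (hmin m ((h1.trans (K.bd_subset v)).trans hv)) (not_le.2 h2)

/-- the two tiles adjacent to a disc -/
theorem exists_two (ho : IsOpen K.carrier) (hk : Mid K k) : ∃ j₁ j₂, j₁ ≠ j₂ ∧
    ∀ j, (Tile K j ∧ Same K k j ∧ Cmp K k j) ↔ (j = j₁ ∨ j = j₂) := by
  rcases hk with hk | hk
  · obtain ⟨p, q, j₁, j₂, ha, hb, h1, h2, h3, h4, h5⟩ := K.exists_edge hk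
    refine ⟨j₁, j₂, h5, fun j => ⟨fun ⟨ht, hs, hm⟩ => ?_, ?_⟩⟩
    · have h0 : K.dim j = 0 := by
        have := hs.1 hk.le
        rcases ht with ht | ht <;> omega
      have h6 := K.subset_bd_of_dim_lt (hm.symm.sub (by omega)) (by omega)
      obtain ⟨a, h7⟩ := K.exists_vertex h0
      rw [hb, h7, singleton_subset_iff] at h6
      rcases h6 with h6 | h6
      · exact Or.inl (K.cell_injective (by rw [h7, h3, h6]))
      · exact Or.inr (K.cell_injective (by rw [h7, h4, h6]))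
    · rintro (rfl | rfl)
      · exact ⟨Or.inl h1, by unfold Same; omega,
          Or.inr (by rw [h3, singleton_subset_iff]; exact ha.left_mem)⟩
      · exact ⟨Or.inl h2, by unfold Same; omega,
          Or.inr (by rw [h4, singleton_subset_iff]; exact ha.right_mem)⟩
  · obtain ⟨j₁, j₂, h5, h⟩ := (man K K.sub_carrier (n := 2) (plMan_open ho)).2.2.2.1 k
      (K.cell_subset_carrier k) hk
    refine ⟨j₁, j₂, h5, fun j => Iff.trans ⟨fun ⟨ht, hs, hm⟩ => ?_, fun ⟨h1, _, h2⟩ => ?_⟩ (h j)⟩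
    · have h0 : K.dim j = 3 := by
        unfold Same at hs
        rcases ht with ht | ht <;> omega
      exact ⟨hm.sub (by omega), K.cell_subset_carrier j, h0⟩
    · exact ⟨Or.inr h2, by unfold Same; omega, Or.inl h1⟩

theorem tile_or_mid (ho : IsOpen K.carrier) (i : K.ι) : Tile K i ∨ Mid K i := by
  have := dim_le_three ho i
  unfold Tile Mid
  omega

theorem Tile.eq (hi : Tile K i) (hj : Tile K j) (hs : Same K i j) (hm : Cmp K i j) : i = j :=
  hm.eq (by unfold Tile Same at *; omega)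

theorem Mid.eq (hi : Mid K i) (hj : Mid K j) (hs : Same K i j) (hm : Cmp K i j) : i = j :=
  hm.eq (by unfold Mid Same at *; omega)

theorem Tile.ne (hi : Tile K i) (hk : Mid K k) : i ≠ k := by
  rintro rfl
  unfold Tile Mid at *
  omega

theorem Mid.tile (ho : IsOpen K.carrier) (hk : Mid K k) (hs : Same K k j) (hm : Cmp K k j)
    (hne : j ≠ k) : Tile K j :=
  (tile_or_mid ho j).resolve_right fun hj => hne (hk.eq hj hs hm).symm

theorem cmp_opp (hk : Mid K k) (hi : i ≠ k) (hs : Same K k i) (hm : Cmp K k i)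
    (hj : ¬ Same K k j) (hkj : Cmp K k j) : Cmp K i j := by
  have h0 : K.dim k ≠ K.dim i := fun h => hi (hm.eq h).symm
  unfold Mid Same at *
  rcases hk with hk | hk
  · exact Or.inl ((hm.symm.sub (by omega)).trans (hkj.sub (by omega)))
  · exact Or.inr ((hkj.symm.sub (by omega)).trans (hm.sub (by omega)))

theorem Same.refl (i : K.ι) : Same K i i := Iff.rfl

/-! ### the balls -/

/-- the ball at the cell `i` -/
def Bl (c : K.ι → ℝ) (i : K.ι) : Set E3 := {x ∈ St d i | 0 ≤ c i * L d c x}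

/-- its interior -/
def Op (c : K.ι → ℝ) (i : K.ι) : Set E3 := {x ∈ W d i | 0 < c i * L d c x}

/-- its boundary -/
def Bd (c : K.ι → ℝ) (i : K.ι) : Set E3 := Bl d c i \ Op d c i

/-- the surface -/
def Gs (c : K.ι → ℝ) : Set E3 := {x ∈ K.carrier | L d c x = 0}

theorem Op_sub (c : K.ι → ℝ) (i : K.ι) : Op d c i ⊆ Bl d c i :=
  fun _ hx => ⟨W_sub_St d i hx.1, hx.2.le⟩

theorem mem_Bd (hc : Wt K c) : x ∈ Bd d c i ↔ x ∈ Bl d c i ∧ (d.t i x = 0 ∨ L d c x = 0) := by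
  refine and_congr_right fun hx => ⟨fun h => ?_, fun h h' => ?_⟩
  · by_contra hn
    push Not at hn
    exact h ⟨⟨hx.1.1, t_pos d hn.1⟩, hx.2.lt_of_ne (mul_ne_zero (hc.ne i) hn.2).symm⟩
  · rcases h with h | h
    · exact h'.1.2.ne' h
    · exact h'.2.ne' (by rw [h, mul_zero])

theorem Op_open (ho : IsOpen K.carrier) (c : K.ι → ℝ) (i : K.ι) : IsOpen (Op d c i) :=
  isOpen_pos (W_open d ho i) ((A2.pl_mul (c i) (pl_L d c)).1.mono fun _ hx => hx.1)

theorem poly_St (ho : IsOpen K.carrier) (i : K.ι) : Poly K.carrier (St d i) :=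
  poly_supp d ho fun j => Cmp K i j

theorem poly_Bl (ho : IsOpen K.carrier) (c : K.ι → ℝ) (i : K.ι) : Poly K.carrier (Bl d c i) := by
  have h := (poly_St d ho i).inter (poly_ge ho (A2.pl_mul (c i) (pl_L d c)))
  have he : Bl d c i = St d i ∩ {x ∈ K.carrier | 0 ≤ c i * L d c x} :=
    Set.ext fun x => ⟨fun h => ⟨h.1, h.1.1, h.2⟩, fun h => ⟨h.1, h.2.2⟩⟩
  rw [he]
  exact h

theorem ray_Op (hc : Wt K c) (hx : x ∈ Bl d c i) {s : ℝ} (hs : s ∈ Ico (0:ℝ) 1) :
    d.b i + s • (x - d.b i) ∈ Op d c i := by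
  have hp := cpt_b_left d hx.1
  obtain ⟨a1, a2⟩ := comb d (b_mem d i) hx.1.1 hp hs.1 hs.2.le
  have h1 : 0 < 1 - s := sub_pos.2 hs.2
  refine ⟨⟨a1, ?_⟩, ?_⟩
  · rw [a2, t_b_self]
    have := mul_nonneg hs.1 (d.nonneg i x)
    linarith
  · rw [L_comb d c (b_mem d i) hx.1.1 hp hs.1 hs.2.le, L_b]
    have h2 := mul_pos h1 (mul_self_pos.2 (hc.ne i))
    have h3 := mul_nonneg hs.1 hx.2
    nlinarith

theorem b_mem_Op (hc : Wt K c) (i : K.ι) : d.b i ∈ Op d c i :=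
  ⟨⟨b_mem d i, by rw [t_b_self]; exact one_pos⟩, by
    rw [L_b]; exact mul_self_pos.2 (hc.ne i)⟩

theorem interior_Bl (ho : IsOpen K.carrier) (hc : Wt K c) (i : K.ι) :
    interior (Bl d c i) = Op d c i := by
  refine Subset.antisymm (fun x hx => ?_)
    (interior_maximal (Op_sub d c i) (Op_open d ho c i))
  obtain ⟨s, h0, -, hs⟩ := (eventually_ray (mem_interior_iff_mem_nhds.1 hx)
    (x + (x - d.b i))).exists
  have h1 : 0 < 1 + s := by linarith
  have h2 := ray_Op d hc hs (s := (1 + s)⁻¹)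
    ⟨(inv_pos.2 h1).le, inv_lt_one_of_one_lt₀ (by linarith)⟩
  have h3 : x + s • (x + (x - d.b i) - x) - d.b i = (1 + s) • (x - d.b i) := by module
  rwa [h3, smul_smul, inv_mul_cancel₀ h1.ne', one_smul, add_sub_cancel] at h2

theorem isCompact_Bl (ho : IsOpen K.carrier) (c : K.ι → ℝ) (i : K.ι) : IsCompact (Bl d c i) :=
  isCompact_of_St d (fun _ hx => hx.1) (poly_Bl d ho c i).1

theorem ball_Bl (hS : STARB) (ho : IsOpen K.carrier) (hc : Wt K c) (i : K.ι) :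
    ConBall 3 (Bl d c i) (Bd d c i) := by
  have hK := isCompact_Bl d ho c i
  have h := hS (a := d.b i) hK ((poly_Bl d ho c i).locCone (fun _ hx => hx.1.1) hK)
    (mem_of_superset ((Op_open d ho c i).mem_nhds (b_mem_Op d hc i)) (Op_sub d c i))
    fun x hx s hs => by
      rw [interior_Bl d ho hc]
      exact ray_Op d hc hx hs
  rwa [hK.isClosed.frontier_eq, interior_Bl d ho hc] at h

theorem Bd_inter_W (hc : Wt K c) (i : K.ι) : Bd d c i ∩ W d i = Gs d c ∩ W d i := by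
  ext x
  refine and_congr_left fun hx => ?_
  rw [mem_Bd d hc]
  exact ⟨fun h => ⟨hx.1, h.2.resolve_left hx.2.ne'⟩,
    fun h => ⟨⟨W_sub_St d i hx, by rw [h.2, mul_zero]⟩, Or.inr h.2⟩⟩

theorem nhds_Bd (ho : IsOpen K.carrier) (hc : Wt K c) (hx : x ∈ W d i) :
    𝓝[Bd d c i] x = 𝓝[Gs d c] x := by
  have h := (W_open d ho i).mem_nhds hx
  rw [nhdsWithin_restrict' _ h, Bd_inter_W d hc, ← nhdsWithin_restrict' _ h]

theorem man_Gs (hS : STARB) (ho : IsOpen K.carrier) (hc : Wt K c) : PLMan 2 (Gs d c) := by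
  intro x hx
  obtain ⟨i, hi⟩ := exists_t d hx.1
  have hW : x ∈ W d i := ⟨hx.1, t_pos d hi⟩
  have h := (ball_Bl d hS ho hc i).conSphere.plMan.inter_open (W_open d ho i)
  rw [Bd_inter_W d hc] at h
  obtain ⟨C, B, h1, h2, h3, h4⟩ := h x ⟨hx, hW⟩
  rw [← nhdsWithin_restrict' _ ((W_open d ho i).mem_nhds hW)] at h4
  exact ⟨C, B, h1, h2, h3.trans inter_subset_left, h4⟩

theorem closure_side (hc : Wt K c) {a : ℝ} (ha : a ≠ 0) (hx : x ∈ Gs d c) :
    x ∈ closure {y ∈ K.carrier | 0 < a * L d c y} := by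
  obtain ⟨j, h1, h2⟩ := exists_same d ha hc.ne hx.1 (by rw [hx.2, mul_zero])
  have hp := cpt_b_right d (mem_St d h1)
  refine mem_closure_of_ray (y := d.b j) ?_
  filter_upwards [eventually_ray (x := x) univ_mem (d.b j)] with s ⟨h0, h3, _⟩
  refine ⟨(comb d hx.1 (b_mem d j) hp h0.le h3).1, ?_⟩
  rw [L_comb d c hx.1 (b_mem d j) hp h0.le h3, L_b, hx.2]
  nlinarith [mul_pos h0 h2]

theorem two_Gs (hS : STARB) (ho : IsOpen K.carrier) (hc : Wt K c) :
    TwoSided K.carrier (Gs d c) {y ∈ K.carrier | 0 < L d c y} {y ∈ K.carrier | L d c y < 0} := by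
  have he : {y ∈ K.carrier | L d c y < 0} = {y ∈ K.carrier | 0 < (-1) * L d c y} := by
    ext y
    simp
  refine ⟨ho, fun _ hx => hx.1, (poly_eq ho (pl_L d c)).1, man_Gs d hS ho hc,
    isOpen_pos ho (pl_L d c).1, ?_, Set.disjoint_left.2 fun x h1 h2 => lt_asymm h1.2 h2.2, ?_,
    fun x hx => ?_, fun x hx => ?_⟩
  · rw [he]
    exact isOpen_pos ho (A2.pl_mul _ (pl_L d c)).1
  · ext x
    constructor
    · rintro (h | h)
      · exact ⟨h.1, fun h' => h.2.ne' h'.2⟩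
      · exact ⟨h.1, fun h' => h.2.ne h'.2⟩
    · rintro ⟨h1, h2⟩
      rcases lt_or_gt_of_ne (fun h => h2 ⟨h1, h⟩ : L d c x ≠ 0) with h | h
      · exact Or.inr ⟨h1, h⟩
      · exact Or.inl ⟨h1, h⟩
  · simpa using closure_side d hc one_ne_zero hx
  · rw [he]
    exact closure_side d hc (by norm_num) hx

/-! ### the discs -/

/-- the disc at the cell `k` -/
def Dsc (c : K.ι → ℝ) (k : K.ι) : Set E3 :=
  {x ∈ Bl d c k | ∀ j, d.t j x ≠ 0 → Same K k j → j = k}

/-- its boundary -/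
def Jc (c : K.ι → ℝ) (k : K.ι) : Set E3 := {x ∈ Dsc d c k | L d c x = 0}

theorem Dsc_sub_W (hc : Wt K c) (k : K.ι) : Dsc d c k ⊆ W d k := fun x hx => by
  obtain ⟨j, h1, h2⟩ := exists_same d (hc.ne k) hc.ne hx.1.1.1 hx.1.2
  rw [hx.2 j h1 (hc.same h2)] at h1
  exact ⟨hx.1.1.1, t_pos d h1⟩

theorem poly_Dsc (ho : IsOpen K.carrier) (c : K.ι → ℝ) (k : K.ι) :
    Poly K.carrier (Dsc d c k) := by
  have h := (poly_Bl d ho c k).inter (poly_supp d ho fun j => Same K k j → j = k)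
  have he : Dsc d c k = Bl d c k ∩ {x ∈ K.carrier | ∀ j, d.t j x ≠ 0 → Same K k j → j = k} :=
    Set.ext fun x => ⟨fun h => ⟨h.1, h.1.1.1, h.2⟩, fun h => ⟨h.1, h.2.2⟩⟩
  rw [he]
  exact h

theorem Dsc_sub_Bd (hc : Wt K c) (hk : Mid K k) (hi : Tile K i) (hs : Same K k i)
    (hm : Cmp K k i) : Dsc d c k ⊆ Bd d c i := fun x hx => by
  rw [mem_Bd d hc]
  refine ⟨⟨⟨hx.1.1.1, fun j hj => ?_⟩, hc.sign hs hx.1.2⟩, Or.inl ?_⟩
  · by_cases h : Same K k j
    · rw [hx.2 j hj h]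
      exact hm.symm
    · exact cmp_opp hk (hi.ne hk) hs hm h (hx.1.1.2 j hj)
  · by_contra h
    exact hi.ne hk (hx.2 i h hs)

/-- a point of a tile with vanishing top coordinate lies in a disc -/
theorem mem_Dsc (ho : IsOpen K.carrier) (hc : Wt K c) (hk : Mid K k) (hi : Tile K i)
    (hs : Same K k i) (hx : x ∈ Bl d c i) (h0 : d.t i x = 0) (hk0 : d.t k x ≠ 0) :
    x ∈ Dsc d c k := by
  refine ⟨⟨mem_St d hk0, hc.sign hs.symm hx.2⟩, fun j hj h => ?_⟩
  by_contra hne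
  have h1 := hk.tile ho h (d.chain x k j hk0 hj) hne
  rw [← hi.eq h1 (hs.symm.trans h) (hx.1.2 j hj)] at hj
  exact hj h0

theorem disc_Dsc (hS : STARB) (hN : CONEN) (ho : IsOpen K.carrier) (hc : Wt K c)
    (hk : Mid K k) : ConBall 2 (Dsc d c k) (Jc d c k) := by
  obtain ⟨i, i', -, hii⟩ := exists_two ho hk
  obtain ⟨hi, hs, hm⟩ := (hii i).2 (Or.inl rfl)
  have hK : IsCompact (Dsc d c k) := isCompact_of_St d (fun _ hx => hx.1.1) (poly_Dsc d ho c k).1
  have hn : ∀ z ∈ Op d c k, Dsc d c k ∈ 𝓝[Bd d c i] z := fun z hz => by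
    filter_upwards [mem_nhdsWithin_of_mem_nhds ((Op_open d ho c k).mem_nhds hz),
      self_mem_nhdsWithin] with y h1 h2
    rw [mem_Bd d hc] at h2
    exact mem_Dsc d ho hc hk hi hs h2.1
      (h2.2.resolve_right fun h => h1.2.ne' (by rw [h, mul_zero])) h1.1.2.ne'
  have h := hN (a := d.b k) (ball_Bl d hS ho hc i).conSphere.plMan (Dsc_sub_Bd d hc hk hi hs hm) hK
    ((poly_Dsc d ho c k).locCone (fun _ hx => hx.1.1.1) hK)
    ⟨Op_sub d c k (b_mem_Op d hc k), fun j hj _ => eq_of_t_b d hj⟩ fun x hx s hs => by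
      have h1 := ray_Op d hc hx.1 hs
      refine ⟨⟨Op_sub d c k h1, fun j hj hj' => ?_⟩, hn _ h1⟩
      by_contra hne
      rw [(comb d (b_mem d k) hx.1.1.1 (cpt_b_left d hx.1.1) hs.1 hs.2.le).2,
        of_not_not (mt (eq_of_t_b d) hne), of_not_not fun h => hne (hx.2 j h hj')] at hj
      exact hj (by ring)
  have he : {x ∈ Dsc d c k | Dsc d c k ∉ 𝓝[Bd d c i] x} = Jc d c k := by
    ext x
    refine and_congr_right fun hx => ⟨fun h => ?_, fun h h' => ?_⟩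
    · by_contra h0
      exact h (hn x ⟨Dsc_sub_W d hc k hx, hx.1.2.lt_of_ne (mul_ne_zero (hc.ne k) h0).symm⟩)
    · have hxi := ((mem_Bd d hc).1 (Dsc_sub_Bd d hc hk hi hs hm hx)).1
      obtain ⟨j, h1, h2⟩ := exists_same d (neg_ne_zero.2 (hc.ne i)) hc.ne hx.1.1.1
        (by rw [h, mul_zero])
      obtain ⟨a, a1, a2, a3, -, a5⟩ := exists_mid d (c := c) (hxi.1.2 j h1) (by linarith)
      have hp : Cpt d x a := fun m n hm' hn' => by
        rcases a5 n hn' with e | e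
        · rw [e]
          exact (hxi.1.2 m hm').symm
        · rw [e]
          exact d.chain x m j hm' h1
      obtain ⟨U, hU, hUD⟩ := mem_nhdsWithin_iff_exists_mem_nhds_inter.1 h'
      obtain ⟨s, h0, h3, h4⟩ := (eventually_ray hU a).exists
      obtain ⟨b1, b2⟩ := comb d hx.1.1.1 a1 hp h0.le h3
      have b3 : L d c (x + s • (a - x)) = 0 := by
        rw [L_comb d c hx.1.1.1 a1 hp h0.le h3, h, a2]
        ring
      have b4 : d.t i (x + s • (a - x)) ≠ 0 := by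
        rw [b2]
        have := mul_nonneg (sub_nonneg.2 h3) (d.nonneg i x)
        have := mul_pos h0 a3
        linarith
      exact hi.ne hk ((hUD ⟨h4, (mem_Bd d hc).2
        ⟨⟨mem_St d b4, by rw [b3, mul_zero]⟩, Or.inr b3⟩⟩).2 i b4 hs)
  rwa [he] at h

end P073.T0
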