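import Vale.Agent.P073Z.Lam
import Vale.Agent.P073Z.A2
import Vale.Agent.P073Z.ANN
import Vale.Agent.P073Z.SHELL

/-!
# Cutting a disc along a collar: level circles and their planar models
-/

open Set Metric Topology Filter

namespace P073.LemH

open A2

variable {G : Type} [NormedAddCommGroup G] [NormedSpace ℝ G]

/-- the model annulus -/
def An : Set (ℝ × ℝ) := {y | 1 / 2 ≤ ‖y‖ ∧ ‖y‖ ≤ 3 / 2}

theorem conBall_sq {c : ℝ} (hc : 0 < c) : ConBall 2 (closedBall (0 : ℝ × ℝ) c) (sphere 0 c) := by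
  have h := A12.conBall_square.image (A12.ofCLE (ContinuousLinearEquiv.smulLeft (R₁ := ℝ)
    (M₁ := ℝ × ℝ) (Units.mk0 c hc.ne'))) (subset_univ _)
  have e1 : (fun x : ℝ × ℝ => c • x) '' closedBall 0 1 = closedBall 0 c := by
    rw [image_smul, _root_.smul_closedBall _ _ zero_le_one, smul_zero, mul_one,
      Real.norm_of_nonneg hc.le]
  rw [← e1, ← Sh.image_smul_sphere hc]
  exact h

/-- selection of the level circles -/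
theorem select [FiniteDimensional ℝ G] (hP : P4) {D B : Set G} {lam : G → ℝ} {z : G}
    (hD : ConBall 2 D B) (hl : PLOn lam D) (hB : ∀ x ∈ B, lam x ≤ 0) (hz : z ∈ D)
    (hz1 : 1 ≤ lam z) : ∃ t ∈ Ioo (1 / 3 : ℝ) (2 / 3), ∃ (Δ₀ J₀ : Set G) (s : Finset (Set G))
      (Δ : Set G → Set G), ConBall 2 Δ₀ J₀ ∧ Δ₀ ⊆ D ∧ z ∈ Δ₀ ∧ (∀ x ∈ J₀, lam x = t) ∧
      (∀ J ∈ s, ConBall 2 (Δ J) J ∧ Δ J ⊆ Δ₀ ∧ Disjoint J J₀ ∧ z ∉ Δ J ∧ ∀ x ∈ J, lam x = t) ∧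
      (∀ J ∈ s, ∀ J' ∈ s, J ≠ J' → Disjoint (Δ J) (Δ J')) ∧
      ∀ x ∈ Δ₀ \ ⋃ J ∈ s, (Δ J \ J), t ≤ lam x := by
  classical
  obtain ⟨T, hT, H⟩ := hP hD hl
  obtain ⟨t, ht, htT⟩ := (Ioo_infinite (show (1 / 3 : ℝ) < 2 / 3 by norm_num)).exists_notMem_finite hT
  obtain ⟨⟨𝒞, h1, h2, h3⟩, -⟩ := H t htT
  have hm : ∀ c ∈ 𝒞, ∀ x ∈ c, x ∈ D ∧ lam x = t := fun c hc x hx => by
    have : x ∈ {x ∈ D | lam x = t} := h1 ▸ mem_iUnion₂.2 ⟨c, hc, hx⟩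
    exact this
  have hm' : ∀ x ∈ D, lam x = t → ∃ c ∈ 𝒞, x ∈ c := fun x hx e => by
    have : x ∈ ⋃ c ∈ 𝒞, c := h1 ▸ (⟨hx, e⟩ : x ∈ {x ∈ D | lam x = t})
    obtain ⟨c, hc, hx⟩ := mem_iUnion₂.1 this
    exact ⟨c, hc, hx⟩
  have hcB : ∀ c ∈ 𝒞, Disjoint c B := fun c hc => disjoint_left.2 fun x hx hxB => by
    linarith [(hm c hc x hx).2, hB x hxB, ht.1]
  have hd : ∀ c ∈ 𝒞, ∃ Δ, ConBall 2 Δ c ∧ Δ ⊆ D := by
    intro c hc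
    rcases h3 c hc with h | ⟨p, q, -, h⟩
    · obtain ⟨Δ, a1, a2, -⟩ := cid hD h.1 fun x hx => (hm c hc x hx).1
      exact ⟨Δ, a2, a1⟩
    · have : p ∈ c ∩ B := h ▸ mem_insert _ _
      exact absurd this.2 (disjoint_left.1 (hcB c hc) this.1)
  choose! Δ hΔ hΔD using hd
  have hex : ∃ c ∈ 𝒞, z ∈ Δ c := by
    by_contra hn
    push Not at hn
    obtain ⟨s, hs, a1, a2⟩ := Lam.exists_outer 𝒞 Δ id hD (fun c hc => ⟨hΔ c hc, hΔD c hc⟩) h2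
    obtain ⟨b, hb⟩ := Lam.bd_nonempty hD
    have := Lam.rest_ge s Δ id hD (fun c hc => ⟨hΔ c (hs hc), hΔD c (hs hc), hcB c (hs hc)⟩) a1
      (g := fun x => -lam x) hl.1.neg (t := -t) (fun x hx e => by
        obtain ⟨c, hc, hxc⟩ := hm' x hx.1 (neg_injective e)
        obtain ⟨c', hc', h⟩ := a2 c hc
        exact ⟨c', hc', h ((hΔ c hc).1 hxc)⟩) (hD.1 hb) (fun c hc hbc => by
        by_cases h : b ∈ c
        · exact disjoint_left.1 (hcB c (hs hc)) h hb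
        · exact disjoint_left.1 (Lam.sub_open hD (hΔ c (hs hc)) (hΔD c (hs hc))).1 ⟨hbc, h⟩ hb)
      (by linarith [hB b hb, ht.1]) z ⟨hz, fun h => by
        obtain ⟨c, hc, h⟩ := mem_iUnion₂.1 h
        exact hn c (hs hc) h.1⟩
    linarith [ht.2]
  obtain ⟨c₁, hc₁, hz₁⟩ := hex
  obtain ⟨J₀, hJ₀⟩ := (𝒞.filter fun c => z ∈ Δ c).exists_minimalFor Δ
    ⟨c₁, Finset.mem_filter.2 ⟨hc₁, hz₁⟩⟩
  obtain ⟨hJ, hzJ⟩ := Finset.mem_filter.1 hJ₀.1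
  let s₁ := 𝒞.filter fun c => Δ c ⊆ Δ J₀ \ J₀
  have hs₁ : ∀ c ∈ s₁, c ∈ 𝒞 ∧ Δ c ⊆ Δ J₀ ∧ Disjoint c J₀ ∧ z ∉ Δ c := by
    intro c hc
    obtain ⟨a1, a2⟩ := Finset.mem_filter.1 hc
    refine ⟨a1, a2.trans sdiff_subset, disjoint_left.2 fun x hx => (a2 ((hΔ c a1).1 hx)).2,
      fun hzc => ?_⟩
    have a3 : Δ J₀ ⊆ Δ c := hJ₀.2 (Finset.mem_filter.2 ⟨a1, hzc⟩) (a2.trans sdiff_subset)
    obtain ⟨x, hx⟩ := Lam.bd_nonempty (hΔ J₀ hJ)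
    exact (a2 (a3 ((hΔ J₀ hJ).1 hx))).2 hx
  obtain ⟨s, hs, a1, a2⟩ := Lam.exists_outer s₁ Δ id (hΔ J₀ hJ)
    (fun c hc => ⟨hΔ c (hs₁ c hc).1, (hs₁ c hc).2.1⟩)
    fun c hc c' hc' => h2 c (hs₁ c hc).1 c' (hs₁ c' hc').1
  refine ⟨t, ht, Δ J₀, J₀, s, Δ, hΔ J₀ hJ, hΔD J₀ hJ, hzJ, fun x hx => (hm J₀ hJ x hx).2,
    fun c hc => ?_, a1, ?_⟩
  · obtain ⟨b1, b2, b3, b4⟩ := hs₁ c (hs hc)
    exact ⟨hΔ c b1, b2, b3, b4, fun x hx => (hm c b1 x hx).2⟩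
  · refine Lam.rest_ge s Δ id (hΔ J₀ hJ) (fun c hc => ?_) a1 (hl.1.mono (hΔD J₀ hJ))
      (fun x hx e => ?_) hzJ (fun c hc => (hs₁ c (hs hc)).2.2.2) (by linarith [ht.2])
    · obtain ⟨b1, b2, b3, -⟩ := hs₁ c (hs hc)
      exact ⟨hΔ c b1, b2, b3⟩
    · obtain ⟨c, hc, hxc⟩ := hm' x (hΔD J₀ hJ hx.1) e
      have hne : J₀ ≠ c := fun h => hx.2 (h ▸ hxc)
      obtain ⟨c', hc', h⟩ := a2 c (Finset.mem_filter.2 ⟨hc, Lam.nest hD (hΔ J₀ hJ) (hΔ c hc)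
        (hΔD J₀ hJ) (hΔD c hc) (h2 J₀ hJ c hc hne) ⟨x, hxc, hx.1⟩⟩)
      exact ⟨c', hc', h ((hΔ c hc).1 hxc)⟩

theorem isCompact_An : IsCompact An :=
  (isCompact_closedBall (0 : ℝ × ℝ) (3 / 2)).of_isClosed_subset
    ((isClosed_le continuous_const continuous_norm).inter
      (isClosed_le continuous_norm continuous_const)) fun _ h => mem_closedBall_zero_iff.2 h.2

theorem pl_norm2 : PLOn (fun y : ℝ × ℝ => ‖y‖) univ :=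
  ⟨continuous_norm.continuousOn, Sh.conicalOn_norm_prod⟩

theorem locCone_An : LocCone An :=
  (locCone_setOf_ge continuous_norm Sh.conicalOn_norm_prod _).inter
    (locCone_setOf_le continuous_norm Sh.conicalOn_norm_prod _)

variable {Y : Set G} (Λ : ConHomeo (An ×ˢ Icc (0:ℝ) 1) Y)

/-- graphs in the collar -/
theorem exists_graph {S : Set (ℝ × ℝ)} (hS : IsCompact S) (hSA : S ⊆ An) {h : ℝ × ℝ → ℝ}
    (hh : PLOn h S) (h01 : ∀ y ∈ S, h y ∈ Icc (0:ℝ) 1) :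
    ∃ Φ : ConHomeo S ((fun y => Λ.toFun (y, h y)) '' S), Φ.toFun = fun y => Λ.toFun (y, h y) := by
  have hm : MapsTo (fun y => (y, h y)) S (An ×ˢ Icc (0:ℝ) 1) := fun y hy => ⟨hSA hy, h01 y hy⟩
  have hp := pl_comp ⟨Λ.cont, Λ.conical⟩ (pl_prodMk (pl_id (pl_set hh)) hh) hm
  exact Sh.exists_ofCompact hS _ hp.1
    (fun x hx y hy e => congrArg Prod.fst (Λ.injOn (hm hx) (hm hy) e)) hp.2 rfl

/-- the planar model of a level circle -/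
theorem plane_disc {D Δ J : Set G} {P : Set (ℝ × ℝ)} (θ : ConHomeo D P) {z : G} (hz : z ∈ D)
    (hθ : θ.toFun z = 0) (hΔ : ConBall 2 Δ J) (hΔD : Δ ⊆ D) {t : ℝ} (ht : t ∈ Icc (0:ℝ) 1)
    (hJ : ∀ x ∈ J, ∃ y, 1 / 2 < ‖y‖ ∧ ‖y‖ < 3 / 2 ∧ x = Λ.toFun (y, t) ∧
      (0 : ℝ × ℝ) ∉ segment ℝ (θ.toFun x) y) :
    ∃ Δ' J' : Set (ℝ × ℝ), ConBall 2 Δ' J' ∧ Δ' ⊆ ball 0 (3 / 2) ∧ J' ⊆ An ∧
      J = (fun y => Λ.toFun (y, t)) '' J' ∧ (z ∉ Δ → 0 ∉ Δ' ∧ Δ' ⊆ An) ∧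
      (z ∈ Δ → 0 ∈ Δ' ∧ closedBall 0 (3 / 2) \ (Δ' \ J') ⊆ An) := by
  obtain ⟨L, hL⟩ := exists_graph Λ isCompact_An Subset.rfl (pl_const t locCone_An.conicalSet)
    fun _ _ => ht
  have hJL : J ⊆ (fun y => Λ.toFun (y, t)) '' An := fun x hx => by
    obtain ⟨y, h1, h2, h3, -⟩ := hJ x hx
    exact ⟨y, ⟨h1.le, h2.le⟩, h3.symm⟩
  have hy : ∀ x ∈ J, 1 / 2 < ‖L.invFun x‖ ∧ ‖L.invFun x‖ < 3 / 2 ∧
      (0 : ℝ × ℝ) ∉ segment ℝ (θ.toFun x) (L.invFun x) := fun x hx => by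
    obtain ⟨y, h1, h2, h3, h4⟩ := hJ x hx
    have : L.invFun x = y := by
      rw [← L.left_inv (⟨h1.le, h2.le⟩ : y ∈ An), hL, h3]
    rw [this]
    exact ⟨h1, h2, h4⟩
  have hQ := conBall_sq (show (0:ℝ) < 3 / 2 by norm_num)
  have hJQ : L.invFun '' J ⊆ closedBall 0 (3 / 2) := by
    rintro _ ⟨x, hx, rfl⟩
    exact mem_closedBall_zero_iff.2 (hy x hx).2.1.le
  obtain ⟨Δ', h1, h2, -, h3, -⟩ := cid hQ (A12.circle_image hΔ.isCircleD L.symm hJL) hJQ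
  obtain ⟨e, he, -⟩ := hΔ.exists_extend h2 (L.symm.restr hΔ.conicalSet_bdry hJL)
  have he' : ∀ x ∈ J, e.toFun x = L.invFun x := he
  have hT : (closedBall (0 : ℝ × ℝ) (1 / 2) ∩ Δ').Nonempty →
      closedBall (0 : ℝ × ℝ) (1 / 2) ⊆ Δ' \ L.invFun '' J := by
    have h4 : closedBall (0 : ℝ × ℝ) (1 / 2) ⊆ closedBall 0 (3 / 2) \ L.invFun '' J := by
      refine fun y hy' => ⟨closedBall_subset_closedBall (by norm_num) hy', ?_⟩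
      rintro ⟨x, hx, rfl⟩
      linarith [(hy x hx).1, mem_closedBall_zero_iff.1 hy']
    exact fun hne y hy' => ⟨Lam.sub_of_meet hQ h2 h1 (convex_closedBall _ _).isPreconnected h4 hne
      hy', (h4 hy').2⟩
  have h00 : (0 : ℝ × ℝ) ∈ closedBall (0 : ℝ × ℝ) (1 / 2) := mem_closedBall_self (by norm_num)
  refine ⟨Δ', _, h2, fun y hy' => ?_, L.invSubD hJL, ?_, fun hzΔ => ?_, fun hzΔ => ?_⟩
  · rw [mem_ball_zero_iff]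
    refine lt_of_le_of_ne (mem_closedBall_zero_iff.1 (h1 hy')) fun h => ?_
    refine disjoint_left.1 h3 ⟨hy', ?_⟩ (mem_sphere_zero_iff_norm.2 h)
    rintro ⟨x, hx, rfl⟩
    exact (hy x hx).2.1.ne h
  · exact (L.imgInvD hJL).symm.trans (congrArg (· '' (L.invFun '' J)) hL)
  · have h0 : (0 : ℝ × ℝ) ∉ Δ' := fun h0 => by
      obtain ⟨x, hx, e0⟩ := Lam.zero_mem hΔ e (θ.cont.mono hΔD) (fun x hx => by
        rw [segment_symm, he' x hx]; exact (hy x hx).2.2) h0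
      exact hzΔ (θ.injOn (hΔD hx) hz (e0.trans hθ.symm) ▸ hx)
    refine ⟨h0, fun y hy' => ⟨?_, mem_closedBall_zero_iff.1 (h1 hy')⟩⟩
    by_contra h
    exact h0 (hT ⟨y, mem_closedBall_zero_iff.2 (not_le.1 h).le, hy'⟩ h00).1
  · have h0 : (0 : ℝ × ℝ) ∈ Δ' := by
      rw [← e.image_eq]
      exact Lam.zero_mem hΔ (θ.restr hΔ.conicalSet hΔD) e.cont (fun x hx => by
        rw [he' x hx]; exact (hy x hx).2.2) ⟨z, hzΔ, hθ⟩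
    refine ⟨h0, fun y hy' => ⟨?_, mem_closedBall_zero_iff.1 hy'.1⟩⟩
    by_contra h
    exact hy'.2 (hT ⟨0, h00, h0⟩ (mem_closedBall_zero_iff.2 (not_le.1 h).le))

end P073.LemH
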