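import Vale.Agent.P073Z.T0.LemH1

/-!
# Cutting a disc along a collar: caps, tent and skirt
-/

open Set Metric Topology Filter

namespace P073.LemH

open A2

variable {G : Type} [NormedAddCommGroup G] [NormedSpace ℝ G]
  {Y : Set G} (Λ : ConHomeo (An ×ˢ Icc (0:ℝ) 1) Y) {lam : G → ℝ}

/-- the skirt -/
theorem skirt (hΛ : ∀ y ∈ An, ∀ s ∈ Icc (0:ℝ) 1, lam (Λ.toFun (y, s)) = s) {D : Set G}
    (hD : ConBall 2 D ((fun y => Λ.toFun (y, 1 / 9)) '' sphere 0 (3 / 2)))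
    (hl : ∀ x ∈ D, 1 / 9 ≤ lam x) : ∃ D₁, ConBall 2 D₁ ((fun y => Λ.toFun (y, 0)) '' sphere 0 1) ∧
      ∀ x ∈ D₁, x ∈ D ∨ ∃ y ∈ An, ∃ s ∈ Icc (0:ℝ) (1 / 9), x = Λ.toFun (y, s) ∧
        (s = 0 → y ∈ sphere (0 : ℝ × ℝ) 1) := by
  obtain ⟨Q, hQ⟩ := Sh.exists_shell2 (a := 1) (b := 3 / 2) one_pos (by norm_num)
  obtain ⟨ψ, hψ, -⟩ := Sh.exists_aff (a := 0) (b := 1) (a' := 1) (b' := 3 / 2) (c := 3 / 2)
    (d := -1 / 2) (by norm_num) (fun s hs => ⟨by linarith [hs.2], by linarith [hs.1]⟩)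
    (fun s hs => ⟨by linarith [hs.2], by linarith [hs.1]⟩)
  have hc1 : ConicalSet (sphere (0 : ℝ × ℝ) 1) := locCone_sphere_prod.conicalSet
  have hc2 := (conBall_sq (show (0:ℝ) < 3 / 2 by norm_num)).conicalSet_bdry
  have hsA : sphere (0 : ℝ × ℝ) (3 / 2) ⊆ An := fun y hy => by
    rw [mem_sphere_zero_iff_norm] at hy
    exact ⟨by linarith, hy.le⟩
  obtain ⟨L, hL⟩ := exists_graph Λ (isCompact_sphere _ _) hsA (pl_const (1 / 9 : ℝ) hc2)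
    fun _ _ => ⟨by norm_num, by norm_num⟩
  let σ : ConHomeo (sphere (0 : ℝ × ℝ) 1) (sphere (0 : ℝ × ℝ) (3 / 2)) :=
    Sh.scale (c := 3 / 2) (by norm_num) hc1 (fun x hx => by
      rw [mem_sphere_zero_iff_norm] at hx ⊢
      rw [norm_smul, hx, Real.norm_of_nonneg (by norm_num), mul_one]) (fun x hx => by
      rw [mem_sphere_zero_iff_norm] at hx ⊢
      rw [norm_smul, hx, Real.norm_of_nonneg (by norm_num)]
      norm_num)
  have hSA : {z : ℝ × ℝ | 1 ≤ ‖z‖ ∧ ‖z‖ ≤ 3 / 2} ⊆ An := fun y hy => ⟨by linarith [hy.1], hy.2⟩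
  obtain ⟨M, hM⟩ := exists_graph Λ (Q.isCompact_right ((isCompact_sphere _ _).prod isCompact_Icc))
    hSA (h := fun y => 2 / 9 * (‖y‖ - 1)) (pl_mul _ (pl_sub
      (pl_mono pl_norm2 Q.conicalSet_right (subset_univ _)) (pl_const _ Q.conicalSet_right)))
    fun y hy => ⟨by linarith [hy.1], by linarith [hy.2]⟩
  let β := (σ.trans L).symm
  let κ := ((Sh.prod β ψ).trans Q).trans M
  have hκ : ∀ x s, κ.toFun (x, s) = Λ.toFun (Q.toFun (β.toFun x, ψ.toFun s),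
      2 / 9 * (‖Q.toFun (β.toFun x, ψ.toFun s)‖ - 1)) := fun x s => congrFun hM _
  have h1 := colo κ hD (fun x hx => ?_) ?_
  · refine ⟨_, (congrArg (ConBall 2 _) ?_).mp h1, ?_⟩
    · have h2 : ∀ x ∈ (fun y => Λ.toFun (y, 1 / 9)) '' sphere (0 : ℝ × ℝ) (3 / 2),
          κ.toFun (x, 1) = Λ.toFun (β.toFun x, 0) := by
        intro x hx
        have hb := β.mapsTo hx
        have e : ψ.toFun 1 = 1 := by rw [hψ]; norm_num
        rw [hκ, e, (hQ _ hb).2.1, one_smul, mem_sphere_zero_iff_norm.1 hb, sub_self, mul_zero]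
      ext w
      constructor
      · rintro ⟨⟨x, s⟩, ⟨hx, rfl⟩, rfl⟩
        exact ⟨_, β.mapsTo hx, (h2 x hx).symm⟩
      · rintro ⟨y, hy, rfl⟩
        refine ⟨(β.invFun y, 1), ⟨β.mapsTo_inv hy, rfl⟩, ?_⟩
        rw [h2 _ (β.mapsTo_inv hy), β.right_inv hy]
    · rintro x (hx | ⟨y, hy, rfl⟩)
      · exact Or.inl hx
      · exact Or.inr ⟨y, hSA hy, _, ⟨by linarith [hy.1], by linarith [hy.2]⟩, rfl,
          fun h => mem_sphere_zero_iff_norm.2 (by linarith)⟩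
  · have hb := β.mapsTo hx
    have e : ψ.toFun 0 = 3 / 2 := by rw [hψ]; norm_num
    have e2 : ‖(3 / 2 : ℝ) • β.toFun x‖ = 3 / 2 := mem_sphere_zero_iff_norm.1 (σ.mapsTo hb)
    have e3 : L.toFun ((3 / 2 : ℝ) • β.toFun x) = x := β.left_inv hx
    rw [hκ, e, (hQ _ hb).1, e2]
    refine Eq.trans ?_ ((congrFun hL _).symm.trans e3)
    norm_num
  · rintro _ ⟨⟨y, hy, rfl⟩, hx⟩
    have h2 := hl _ hx
    rw [hΛ y (hSA hy) _ ⟨by linarith [hy.1], by linarith [hy.2]⟩] at h2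
    have h3 : ‖y‖ = 3 / 2 := le_antisymm hy.2 (by linarith)
    refine ⟨y, mem_sphere_zero_iff_norm.2 h3, ?_⟩
    simp only [h3]
    norm_num

/-- the core of the lemma, in the planar model -/
theorem core [FiniteDimensional ℝ G] (hP : P4) {D B : Set G} {P : Set (ℝ × ℝ)}
    (θ : ConHomeo D P) {z : G} (hD : ConBall 2 D B) (hl : PLOn lam D)
    (hΛ : ∀ y ∈ An, ∀ s ∈ Icc (0:ℝ) 1, lam (Λ.toFun (y, s)) = s)
    (hB : ∀ x ∈ B, lam x ≤ 0) (hz : z ∈ D) (hθ : θ.toFun z = 0) (hz1 : 1 ≤ lam z)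
    (hcl : ∀ x ∈ D, lam x ∈ Ioo (1 / 3 : ℝ) (2 / 3) → ∃ y, 1 / 2 < ‖y‖ ∧ ‖y‖ < 3 / 2 ∧
      x = Λ.toFun (y, lam x) ∧ (0 : ℝ × ℝ) ∉ segment ℝ (θ.toFun x) y) :
    ∃ D₁, ConBall 2 D₁ ((fun y => Λ.toFun (y, 0)) '' sphere 0 1) ∧
      ∀ x ∈ D₁, (x ∈ D ∧ 1 / 3 ≤ lam x) ∨ ∃ y ∈ An, ∃ s ∈ Icc (0:ℝ) (2 / 3),
        x = Λ.toFun (y, s) ∧ (s = 0 → y ∈ sphere (0 : ℝ × ℝ) 1) := by
  classical
  obtain ⟨t, ht, Δ₀, J₀, s, Δ, h0, h0D, hz0, hJ₀, hs, hdis, hX⟩ := select hP hD hl hB hz hz1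
  have ht' : t ∈ Icc (0:ℝ) 1 := ⟨by linarith [ht.1], by linarith [ht.2]⟩
  have hpl : ∀ {Δ J : Set G}, ConBall 2 Δ J → Δ ⊆ D → (∀ x ∈ J, lam x = t) → _ :=
    fun {Δ J} h h' hJ => plane_disc Λ θ hz hθ h h' ht' fun x hx => by
      have := hcl x (h' (h.1 hx)) (by rw [hJ x hx]; exact ht)
      rwa [hJ x hx] at this
  obtain ⟨P₀, C₀, p0, p1, p2, p3, -, p4⟩ := hpl h0 h0D hJ₀
  obtain ⟨p4, p5⟩ := p4 hz0
  have hpl' : ∀ J ∈ s, ∃ Δ' J' : Set (ℝ × ℝ), ConBall 2 Δ' J' ∧ Δ' ⊆ ball 0 (3 / 2) ∧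
      J = (fun y => Λ.toFun (y, t)) '' J' ∧ 0 ∉ Δ' ∧ Δ' ⊆ An := by
    intro J hJ
    obtain ⟨a1, a2, -, a4, a5⟩ := hs J hJ
    obtain ⟨Δ', J', b1, b2, -, b3, b4, -⟩ := hpl a1 (a2.trans h0D) a5
    exact ⟨Δ', J', b1, b2, b3, b4 a4⟩
  choose! Pl Cl q0 q1 q2 q3 q4 using hpl'
  have hQ := conBall_sq (show (0:ℝ) < 3 / 2 by norm_num)
  have hdj : ∀ {J J' : Set G} {C C' : Set (ℝ × ℝ)}, J = (fun y => Λ.toFun (y, t)) '' C →
      J' = (fun y => Λ.toFun (y, t)) '' C' → Disjoint J J' → Disjoint C C' := by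
    rintro _ _ C C' rfl rfl h
    exact disjoint_left.2 fun y hy hy' => disjoint_left.1 h ⟨y, hy, rfl⟩ ⟨y, hy', rfl⟩
  -- caps
  obtain ⟨h, hh, hlt⟩ := cap s Pl Cl (show (0:ℝ) < 1 / 9 by norm_num) fun J hJ =>
    ⟨(q0 J hJ).isCompact, (q0 J hJ).isCompact_bdry, (q0 J hJ).locCone_bdry,
      Lam.bd_nonempty (q0 J hJ), (q0 J hJ).1⟩
  have h01 : ∀ J ∈ s, ∀ y, t - h J y ∈ Icc (0:ℝ) 1 := fun J hJ y =>
    ⟨by linarith [ht.1, ((hh J hJ).2.1 y).2], by linarith [ht.2, ((hh J hJ).2.1 y).1]⟩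
  let Cap : Set G → Set G := fun J => (fun y => Λ.toFun (y, t - h J y)) '' Pl J
  have hCap : ∀ J ∈ s, ConBall 2 (Cap J) J := by
    intro J hJ
    have hc := (q0 J hJ).conicalSet
    obtain ⟨Φ, hΦ⟩ := exists_graph Λ (q0 J hJ).isCompact (q4 J hJ)
      (pl_sub (pl_const t hc) (pl_mono (hh J hJ).1 hc (subset_univ _))) fun y _ => h01 J hJ y
    have h1 := (q0 J hJ).image Φ Subset.rfl
    rw [Φ.image_eq] at h1
    refine (congrArg (ConBall 2 _) ?_).mp h1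
    refine Eq.trans (image_congr fun y hy => ?_) (q2 J hJ).symm
    rw [hΦ]
    simp only [((hh J hJ).2.2 y).2 hy, sub_zero]
  obtain ⟨-, -, -, H⟩ := repl s Δ id id h0
    (fun J hJ => ⟨(hs J hJ).1, (hs J hJ).2.1, Or.inl ⟨rfl, (hs J hJ).2.2.1⟩⟩) hdis
  obtain ⟨Φ, hΦ, -⟩ := H Cap id (fun J hJ => ⟨hCap J hJ, Subset.rfl, by
      rintro _ ⟨⟨y, hy, rfl⟩, hx⟩
      have h1 := hX _ hx
      rw [hΛ y (q4 J hJ hy) _ (h01 J hJ y)] at h1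
      have h2 : h J y = 0 := le_antisymm (by linarith) ((hh J hJ).2.1 y).1
      refine (q2 J hJ).symm.subset ⟨y, ((hh J hJ).2.2 y).1 h2, ?_⟩
      simp only [h2, sub_zero]⟩) (by
    intro J hJ J' hJ' hne
    refine disjoint_left.2 ?_
    rintro _ ⟨y, hy, rfl⟩ ⟨y', hy', e⟩
    have e1 := Λ.injOn (x₁ := (y', t - h J' y')) (x₂ := (y, t - h J y))
      ⟨q4 J' hJ' hy', h01 J' hJ' y'⟩ ⟨q4 J hJ hy, h01 J hJ y⟩ e
    obtain ⟨rfl, e2⟩ := Prod.mk.inj e1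
    rcases Lam.laminar hQ (q0 J hJ) (q0 J' hJ') ((q1 J hJ).trans ball_subset_closedBall)
      ((q1 J' hJ').trans ball_subset_closedBall) (hdj (q2 J hJ) (q2 J' hJ')
        ((hdis J hJ J' hJ' hne).mono (hs J hJ).1.1 (hs J' hJ').1.1)) with a | a | a
    · linarith [hlt J hJ J' hJ' a y' hy]
    · linarith [hlt J' hJ' J hJ a y' hy']
    · exact disjoint_left.1 a hy hy')
  have hJX : J₀ ⊆ Δ₀ \ ⋃ J ∈ s, (Δ J \ J) := fun x hx => ⟨h0.1 hx, fun hh => by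
    obtain ⟨J, hJ, hh⟩ := mem_iUnion₂.1 hh
    exact disjoint_left.1 (Lam.sub_open h0 (hs J hJ).1 (hs J hJ).2.1).1 hh hx⟩
  have hD₂ := h0.image Φ Subset.rfl
  rw [Φ.image_eq, image_congr fun x hx => hΦ x (hJX hx), image_id'] at hD₂
  -- the tent
  obtain ⟨d, hd, hd0, hdz⟩ := exists_plDist p0.isCompact p0.locCone ⟨0, p4⟩
  have hZ : IsCompact (sphere (0 : ℝ × ℝ) (3 / 2) ∪
      ⋃ J ∈ s.filter (fun J => Disjoint (Pl J) P₀), Pl J) :=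
    (isCompact_sphere _ _).union (Finset.isCompact_biUnion _ fun J hJ =>
      (q0 J (Finset.mem_filter.1 hJ).1).isCompact)
  obtain ⟨c, hc, hcd⟩ := hZ.exists_forall_le' (hd.1.mono (subset_univ _)) (a := 0) (by
    intro y hy
    refine lt_of_le_of_ne (hd0 y) fun e => ?_
    have hy0 := (hdz y).1 e.symm
    rcases hy with hy | hy
    · exact (mem_ball_zero_iff.1 (p1 hy0)).ne (mem_sphere_zero_iff_norm.1 hy)
    · obtain ⟨J, hJ, hy⟩ := mem_iUnion₂.1 hy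
      exact disjoint_left.1 (Finset.mem_filter.1 hJ).2 hy hy0)
  let τ : ℝ × ℝ → ℝ := fun y => max (1 / 9) (t - c⁻¹ * d y)
  have hτ1 : ∀ y, 1 / 9 ≤ τ y ∧ τ y ≤ t := fun y => ⟨le_max_left _ _,
    max_le (by linarith [ht.1]) (by linarith [mul_nonneg (inv_nonneg.2 hc.le) (hd0 y)])⟩
  have hτ2 : ∀ y, t ≤ τ y ↔ y ∈ P₀ := by
    intro y
    rw [← hdz y, le_max_iff]
    refine ⟨fun h => ?_, fun h => Or.inr (by simp [h])⟩
    have h1 : c⁻¹ * d y ≤ 0 := by linarith [h.resolve_left (by linarith [ht.1])]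
    exact le_antisymm (nonpos_of_mul_nonpos_right h1 (inv_pos.2 hc)) (hd0 y)
  have hτ3 : ∀ y, c ≤ d y → τ y = 1 / 9 := fun y hy => max_eq_left (by
    have := mul_le_mul_of_nonneg_left hy (inv_nonneg.2 hc.le)
    rw [inv_mul_cancel₀ hc.ne'] at this
    linarith [ht.2])
  have hτ01 : ∀ y, τ y ∈ Icc (0:ℝ) 1 := fun y => ⟨by linarith [hτ1 y], by linarith [hτ1 y, ht.2]⟩
  have hRc : IsClosed (closedBall (0 : ℝ × ℝ) (3 / 2) \ (P₀ \ C₀)) := by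
    rw [(p0.ambDiscD iod).2, self_sdiff_frontier]
    exact isClosed_closedBall.sdiff isOpen_interior
  have hRk := hQ.isCompact.of_isClosed_subset hRc sdiff_subset
  have hRl : ConicalSet (closedBall (0 : ℝ × ℝ) (3 / 2) \ (P₀ \ C₀)) :=
    (hQ.locCone.inter (p0.locCone.inter p0.locCone_bdry.compl).compl).conicalSet
  obtain ⟨T, hT⟩ := exists_graph Λ hRk p5 (h := τ) (pl_max (pl_const _ hRl) (pl_sub (pl_const _ hRl)
    (pl_mul _ (pl_mono hd hRl (subset_univ _))))) fun y _ => hτ01 y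
  obtain ⟨L, hL⟩ := exists_graph Λ p0.isCompact_bdry p2 (pl_const t p0.conicalSet_bdry)
    fun _ _ => ht'
  obtain ⟨e, he, -⟩ := p0.exists_extend hD₂ (L.cast rfl p3.symm)
  have he' : ∀ y ∈ C₀, e.toFun y = Λ.toFun (y, τ y) := fun y hy => by
    rw [le_antisymm (hτ1 y).2 ((hτ2 y).2 (p0.1 hy))]
    exact (he hy).trans (congrFun hL y)
  have hin : ∀ y ∈ P₀ ∩ (closedBall (0 : ℝ × ℝ) (3 / 2) \ (P₀ \ C₀)), y ∈ C₀ := fun y hy => by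
    by_contra h
    exact hy.2.2 ⟨hy.1, h⟩
  have hag : EqOn e.toFun T.toFun (P₀ ∩ (closedBall (0 : ℝ × ℝ) (3 / 2) \ (P₀ \ C₀))) :=
    fun y hy => (he' y (hin y hy)).trans (congrFun hT y).symm
  have himg : ((Δ₀ \ ⋃ J ∈ s, (Δ J \ id J)) ∪ ⋃ J ∈ s, Cap J) ∩ (fun y => Λ.toFun (y, τ y)) ''
      (closedBall (0 : ℝ × ℝ) (3 / 2) \ (P₀ \ C₀)) ⊆
      e.toFun '' (P₀ ∩ (closedBall (0 : ℝ × ℝ) (3 / 2) \ (P₀ \ C₀))) := by
    rintro _ ⟨hx | hx, y, hy, rfl⟩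
    · have h1 := hX _ hx
      rw [hΛ y (p5 hy) _ (hτ01 y)] at h1
      have h2 := (hτ2 y).1 h1
      exact ⟨y, ⟨h2, hy⟩, he' y (hin y ⟨h2, hy⟩)⟩
    · exfalso
      obtain ⟨J, hJ, y', hy', e0⟩ := mem_iUnion₂.1 hx
      have e1 := Λ.injOn (x₁ := (y', t - h J y')) (x₂ := (y, τ y))
        ⟨q4 J hJ hy', h01 J hJ y'⟩ ⟨p5 hy, hτ01 y⟩ e0
      obtain ⟨rfl, e2⟩ := Prod.mk.inj e1
      rcases Lam.laminar hQ (q0 J hJ) p0 ((q1 J hJ).trans ball_subset_closedBall)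
        (p1.trans ball_subset_closedBall) (hdj (q2 J hJ) p3 (hs J hJ).2.2.1) with a | a | a
      · exact hy.2 (a hy')
      · exact q3 J hJ (a p4).1
      · have := hτ3 y' (hcd y' (Or.inr (mem_iUnion₂.2 ⟨J, Finset.mem_filter.2 ⟨hJ, a⟩, hy'⟩)))
        linarith [((hh J hJ).2.1 y').2, ht.1]
  have hTc := (T.isCompact_right hRk).isClosed
  have hU : P₀ ∪ closedBall (0 : ℝ × ℝ) (3 / 2) \ (P₀ \ C₀) = closedBall 0 (3 / 2) := by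
    refine Subset.antisymm (union_subset (p1.trans ball_subset_closedBall) sdiff_subset)
      fun y hy => ?_
    by_cases h : y ∈ P₀
    · exact Or.inl h
    · exact Or.inr ⟨hy, fun h' => h h'.1⟩
  have hD₃ := hQ.image (e.glue T p0.isClosed hRc hD₂.isClosed hTc hag himg) hU.ge
  have e1 := (congrArg (fun S => (e.glue T p0.isClosed hRc hD₂.isClosed hTc hag himg).toFun '' S)
    hU).symm.trans (e.glue T p0.isClosed hRc hD₂.isClosed hTc hag himg).image_eq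
  have e2 : (e.glue T p0.isClosed hRc hD₂.isClosed hTc hag himg).toFun '' sphere 0 (3 / 2) =
      (fun y => Λ.toFun (y, 1 / 9)) '' sphere 0 (3 / 2) := by
    refine image_congr fun y hy => ?_
    have h1 : y ∈ closedBall (0 : ℝ × ℝ) (3 / 2) \ (P₀ \ C₀) := ⟨sphere_subset_closedBall hy,
      fun h => (mem_ball_zero_iff.1 (p1 h.1)).ne (mem_sphere_zero_iff_norm.1 hy)⟩
    rw [e.glue_right T p0.isClosed hRc hD₂.isClosed hTc hag himg h1, ← hτ3 y (hcd y (Or.inl hy))]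
    exact congrFun hT y
  replace hD₃ := (congrArg₂ (ConBall 2) e1 e2).mp hD₃
  have hall : ∀ x ∈ ((Δ₀ \ ⋃ J ∈ s, (Δ J \ id J)) ∪ ⋃ J ∈ s, Cap J) ∪ (fun y => Λ.toFun (y, τ y)) ''
      (closedBall (0 : ℝ × ℝ) (3 / 2) \ (P₀ \ C₀)), (x ∈ D ∧ 1 / 3 ≤ lam x) ∨
      ∃ y ∈ An, ∃ s ∈ Icc (1 / 9 : ℝ) (2 / 3), x = Λ.toFun (y, s) := by
    rintro x ((hx | hx) | ⟨y, hy, rfl⟩)
    · exact Or.inl ⟨h0D hx.1, ht.1.le.trans (hX x hx)⟩
    · obtain ⟨J, hJ, y, hy, rfl⟩ := mem_iUnion₂.1 hx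
      exact Or.inr ⟨y, q4 J hJ hy, _, ⟨by linarith [ht.1, ((hh J hJ).2.1 y).2],
        by linarith [ht.2, ((hh J hJ).2.1 y).1]⟩, rfl⟩
    · exact Or.inr ⟨y, p5 hy, _, ⟨(hτ1 y).1, (hτ1 y).2.trans ht.2.le⟩, rfl⟩
  obtain ⟨D₁, h1, h2⟩ := skirt Λ hΛ hD₃ fun x hx => by
    rcases hall x hx with h | ⟨y, hy, s, hs, rfl⟩
    · linarith [h.2]
    · rw [hΛ y hy s ⟨by linarith [hs.1], by linarith [hs.2]⟩]
      exact hs.1
  refine ⟨D₁, h1, fun x hx => ?_⟩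
  rcases h2 x hx with h | ⟨y, hy, s, hs, h⟩
  · rcases hall x h with h | ⟨y, hy, s, hs, h⟩
    · exact Or.inl h
    · exact Or.inr ⟨y, hy, s, ⟨by linarith [hs.1], hs.2⟩, h, fun h0 => by linarith [hs.1]⟩
  · exact Or.inr ⟨y, hy, s, ⟨hs.1, by linarith [hs.2]⟩, h⟩

end P073.LemH
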