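import Vale.Agent.P073Z.Sk2

/-!
# The handle structure of the target: statements
-/

open Set Metric Topology Filter

namespace P073.T0

/-- cells indexing the tiles -/
def Tile (K : RCx E3) (i : K.ι) : Prop := K.dim i = 0 ∨ K.dim i = 3

/-- cells indexing the discs -/
def Mid (K : RCx E3) (k : K.ι) : Prop := K.dim k = 1 ∨ K.dim k = 2

/-- `G` is a closed two-sided surface in the open set `U`, with sides `P` and `M` -/
structure TwoSided (U G P M : Set E3) : Prop where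
  isOpen : IsOpen U
  sub : G ⊆ U
  closedIn : ClosedIn G U
  man : PLMan 2 G
  P_open : IsOpen P
  M_open : IsOpen M
  disj : Disjoint P M
  union : P ∪ M = U \ G
  G_P : G ⊆ closure P
  G_M : G ⊆ closure M

/-- the handle structure: `M` is a thin open neighbourhood of the one-skeleton with
frontier `G`, cut by the discs `D k` into the tiles `T i` -/
structure Model (K : RCx E3) (F : Set E3) where
  /-- the surface -/
  G : Set E3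
  /-- the white side -/
  P : Set E3
  /-- the black side -/
  M : Set E3
  /-- tiles -/
  T : K.ι → Set E3
  /-- boundaries of the tiles -/
  B : K.ι → Set E3
  /-- discs -/
  D : K.ι → Set E3
  /-- boundaries of the discs -/
  J : K.ι → Set E3
  /-- larger discs -/
  X : K.ι → Set E3
  /-- boundaries of the larger discs -/
  BX : K.ι → Set E3
  /-- annuli -/
  A : K.ι → Set E3
  /-- open neighbourhoods -/
  W : K.ι → Set E3
  two : TwoSided K.carrier G P M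
  F_sub : F ⊆ P
  skel_sub : K.skel 1 ⊆ M
  ball : ∀ i, Tile K i → ConBall 3 (T i) (B i)
  T_star : ∀ i, T i ⊆ K.star i
  T_nhds : ∀ i, Tile K i → ∀ x ∈ T i, K.star i ∈ 𝓝 x
  T_lf : LFIn T K.carrier
  cover : ∀ x ∈ K.carrier, ∃ i, Tile K i ∧ x ∈ T i
  pair : ∀ i j, Tile K i → Tile K j → i ≠ j →
    Disjoint (T i \ B i) (T j) ∧ IsPreconnected (B j \ T i) ∧ (B j \ T i).Nonempty
  black : ∀ i, K.dim i = 0 → T i \ B i ⊆ M ∧ ∃ e, K.dim e = 1 ∧ D e ⊆ B i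
  black_cover : ∀ x ∈ M ∪ G, ∃ i, K.dim i = 0 ∧ x ∈ T i
  bd_union : ∀ x, (∃ i, Tile K i ∧ x ∈ B i) ↔ x ∈ G ∨ ∃ k, Mid K k ∧ x ∈ D k
  bd_sub : ∀ i, Tile K i → ∀ x ∈ B i, x ∈ G ∨
    ∃ k, Mid K k ∧ x ∈ D k ∧ W k ⊆ K.star i ∧ (K.dim i = 0 ↔ K.dim k = 1)
  disc : ∀ k, Mid K k → ConBall 2 (D k) (J k)
  big : ∀ k, Mid K k → ConBall 2 (X k) (BX k)
  D_sub : ∀ k, Mid K k → D k ⊆ X k \ BX k
  X_inter : ∀ k, Mid K k → X k ∩ G = J k
  W_open : ∀ k, IsOpen (W k)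
  W_star : ∀ k, W k ⊆ K.star k
  W_lf : LFIn W K.carrier
  W_disj : ∀ k k', k ≠ k' → K.dim k = K.dim k' → Disjoint (W k) (W k')
  X_sub : ∀ k, Mid K k → X k ⊆ W k
  A_sub : ∀ k, Mid K k → A k ⊆ W k ∩ G
  A_nhds : ∀ k, Mid K k → ∀ x ∈ J k, A k ∈ 𝓝[G] x
  ann : ∀ k, Mid K k → ∃ χ : ConHomeo (J k ×ˢ Icc (-1:ℝ) 1) (A k), ∀ x ∈ J k, χ.toFun (x, 0) = x
  D_inter : ∀ k k', Mid K k → Mid K k' → k ≠ k' → D k ∩ D k' ⊆ G
  face : ∀ k, K.dim k = 2 →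
    X k ⊆ K.ocell k ∧ D k \ J k ⊆ P ∧ X k \ D k ⊆ M ∧ K.cell k ∩ P ⊆ D k
  edge : ∀ k, K.dim k = 1 → D k \ J k ⊆ M ∧ X k \ D k ⊆ P ∧
    ∃ U G' P' M', TwoSided U G' P' M' ∧ U ⊆ W k ∧ X k ⊆ G'

def MODEL : Prop := ∀ (K : RCx E3) {F : Set E3}, K.Cvx → IsOpen K.carrier → F ⊆ K.carrier →
  ClosedIn F K.carrier → Disjoint F (K.skel 1) → Nonempty (Model K F)

/-- a star-shaped neighbourhood in a manifold is a ball -/
def CONEN : Prop := ∀ {E : Type} [NormedAddCommGroup E] [NormedSpace ℝ E] [FiniteDimensional ℝ E]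
  {n : ℕ} {X K : Set E} {a : E}, PLMan n X → K ⊆ X → IsCompact K → LocCone K → a ∈ K →
  (∀ x ∈ K, ∀ s ∈ Ico (0:ℝ) 1, a + s • (x - a) ∈ K ∧ K ∈ 𝓝[X] (a + s • (x - a))) →
  ConBall n K {x ∈ K | K ∉ 𝓝[X] x}

/-- a sphere minus disjoint discs -/
def SMD : Prop := ∀ {E : Type} [NormedAddCommGroup E] [NormedSpace ℝ E] {ι : Type}
  (s : Finset ι) {S : Set E} (Δ J : ι → Set E), ConSphere 2 S →
  (∀ i ∈ s, ConBall 2 (Δ i) (J i) ∧ Δ i ⊆ S) →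
  (∀ i ∈ s, ∀ j ∈ s, i ≠ j → Disjoint (Δ i) (Δ j)) →
  IsPreconnected (S \ ⋃ i ∈ s, Δ i) ∧ (S \ ⋃ i ∈ s, Δ i).Nonempty

/-- bicollar of a circle on a sphere -/
def BIC : Prop := ∀ {E : Type} [NormedAddCommGroup E] [NormedSpace ℝ E]
  {S J O : Set E}, ConSphere 2 S → IsCircle J → J ⊆ S → IsOpen O → J ⊆ O →
  ∃ (A : Set E) (χ : ConHomeo (J ×ˢ Icc (-1:ℝ) 1) A), (∀ x ∈ J, χ.toFun (x, 0) = x) ∧
    A ⊆ S ∩ O ∧ ∀ x ∈ J, A ∈ 𝓝[S] x

end P073.T0
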